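import Vale.Agent.P022.H527.L3.Grp

/-!
P022-L3, row [HEX]: the operators `T_ℓ`, `D_a` on `V(N, M, n)` exist and commute.
-/

namespace Vale.Agent.P022.H527.L3

open Matrix Matrix.SpecialLinearGroup Vale.Agent.P022.L3

noncomputable section

variable {N M n : ℕ}

/-- the coefficients, multiplicatively -/
abbrev Bn (n : ℕ) := Multiplicative (ZMod (2 ^ n))

/-- an element of `V` as a homomorphism on `G(N, M)` -/
def toH (φ : V N M n) : Gs N M →* Bn n where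
  toFun γ := Multiplicative.ofAdd (φ.1 γ)
  map_one' := by
    have h := φ.2.2.1 1 1 (Gs N M).one_mem (Gs N M).one_mem
    rw [mul_one] at h
    have h2 : φ.1 1 = 0 := by
      have := add_eq_left.1 h.symm
      exact this
    show Multiplicative.ofAdd (φ.1 1) = 1
    rw [h2, ofAdd_zero]
  map_mul' a b := by
    show Multiplicative.ofAdd (φ.1 (a * b)) = _
    rw [φ.2.2.1 a b a.2 b.2, ofAdd_add]

theorem toH_apply (φ : V N M n) (γ : Gs N M) : toH φ γ = Multiplicative.ofAdd (φ.1 γ) := rfl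

theorem toH_neg (φ : V N M n) : toH φ ⟨-1, neg_one_mem N M⟩ = 1 := by
  rw [toH_apply, φ.2.2.2, ofAdd_zero]

theorem toH_inj {φ ψ : V N M n} (h : toH φ = toH ψ) : φ = ψ := by
  apply Subtype.ext
  funext γ
  by_cases hγ : InG N M γ
  · have := congrArg (fun f => f ⟨γ, hγ⟩) h
    exact Multiplicative.ofAdd.injective this
  · rw [φ.2.1 γ hγ, ψ.2.1 γ hγ]

theorem toH_add (φ ψ : V N M n) : toH (φ + ψ) = toH φ * toH ψ := by
  ext γ
  rfl

open scoped Classical in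
/-- the function of a homomorphism -/
def exH (f : Gs N M →* Bn n) (γ : S2) : ZMod (2 ^ n) :=
  if h : γ ∈ Gs N M then (f ⟨γ, h⟩).toAdd else 0

theorem exH_pos (f : Gs N M →* Bn n) {γ : S2} (h : γ ∈ Gs N M) : exH f γ = (f ⟨γ, h⟩).toAdd :=
  dif_pos h

theorem exH_neg (f : Gs N M →* Bn n) {γ : S2} (h : γ ∉ Gs N M) : exH f γ = 0 := dif_neg h

/-- a homomorphism as an element of `V` -/
def ofH (f : Gs N M →* Bn n) (hf : f ⟨-1, neg_one_mem N M⟩ = 1) : V N M n :=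
  ⟨exH f, by
    refine ⟨fun γ h => exH_neg f h, fun γ δ h1 h2 => ?_, ?_⟩
    · rw [exH_pos f h1, exH_pos f h2, exH_pos f ((Gs N M).mul_mem h1 h2), ← toAdd_mul, ← map_mul]
      rfl
    · rw [exH_pos f (neg_one_mem N M), hf, toAdd_one]⟩

theorem toH_ofH (f : Gs N M →* Bn n) (hf : f ⟨-1, neg_one_mem N M⟩ = 1) : toH (ofH f hf) = f := by
  ext γ
  exact congrArg _ (exH_pos f γ.2)

/-! The operators. -/

theorem good_coprime {ℓ : ℕ} (h : Good N ℓ) : IsCoprime (ℓ : ℤ) ((N * 2 ^ M : ℕ) : ℤ) := by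
  rw [Nat.isCoprime_iff_coprime, Nat.Prime.coprime_iff_not_dvd h.1]
  intro h1
  rcases (Nat.Prime.dvd_mul h.1).1 h1 with h1 | h1
  · exact h.2 (dvd_mul_of_dvd_right h1 _)
  · exact h.2 (dvd_mul_of_dvd_left (h.1.dvd_of_dvd_pow h1) _)

theorem unit_coprime {a : ℤ} (h : IsCoprime a (2 * N)) : IsCoprime a ((N * 2 ^ M : ℕ) : ℤ) := by
  push_cast
  exact (IsCoprime.of_mul_right_right h).mul_right
    (IsCoprime.pow_right (IsCoprime.of_mul_right_left h))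

theorem det_diag (m : ℤ) : (!![1, 0; 0, m] : M2).det = m := by
  rw [Matrix.det_fin_two_of]; ring

theorem diag_ne {ℓ : ℕ} (h : Good N ℓ) : (!![1, 0; 0, (ℓ : ℤ)] : M2).det ≠ 0 := by
  rw [det_diag]
  exact_mod_cast h.1.ne_zero

theorem rep_alp {ℓ : ℕ} (h : Good N ℓ) {δ : S2} (hδ : IsDel N M ℓ δ) :
    Rep (rho (Gs N M)) (alp M ℓ δ) :=
  (famG_alp N M ℓ h δ hδ).rep (diag_ne h) (nrm_diag (good_coprime h))

theorem rep_del {a : ℤ} {δ : S2} (hδ : IsDel N M a δ) :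
    Rep (rho (Gs N M)) (fun _ : Unit => (δ : M2)) :=
  (FamG.unit (Gs N M) (N * 2 ^ M) δ).rep
    (by rw [Matrix.SpecialLinearGroup.det_coe]; exact one_ne_zero) (nrm_dia hδ)

theorem rep_neg {ι : Type*} [Fintype ι] {α : ι → M2} (r : Rep (rho (Gs N M)) α)
    (φ : Gs N M →* Bn n) (hφ : φ ⟨-1, neg_one_mem N M⟩ = 1) :
    r.hk φ ⟨-1, neg_one_mem N M⟩ = 1 := by
  rw [Rep.hk_apply]
  apply Finset.prod_eq_one
  intro i _
  rw [(r.uniq (j := i) (γ' := ⟨-1, neg_one_mem N M⟩) (by simp)).2, hφ]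

/-- independence of `δ` -/
theorem hk_alp {ℓ : ℕ} (h : Good N ℓ) {δ δ' : S2} (hδ : IsDel N M ℓ δ) (hδ' : IsDel N M ℓ δ')
    (φ : Gs N M →* Bn n) : (rep_alp h hδ').hk φ = (rep_alp h hδ).hk φ :=
  hkG_eq (famG_alp N M ℓ h δ hδ) (famG_alp N M ℓ h δ' hδ') rfl
    ⟨1, (Gs N M).one_mem, by rw [Matrix.SpecialLinearGroup.coe_one, one_mul]⟩ (diag_ne h)
    (nrm_diag (good_coprime h)) (nrm_diag (good_coprime h)) _ _ φ

/-- `T_ℓ`, for good `ℓ` -/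
def Tg (N M n : ℕ) {ℓ : ℕ} (h : Good N ℓ) : AddMonoid.End (V N M n) :=
  { toFun := fun φ => ofH ((rep_alp h (exists_isDel N M ℓ (good_coprime h)).choose_spec).hk
      (toH φ)) (rep_neg _ _ (toH_neg φ))
    map_zero' := by
      apply toH_inj
      rw [toH_ofH]
      have : toH (0 : V N M n) = 1 := by ext; rfl
      rw [this, Rep.hk_one]
    map_add' := by
      intro φ ψ
      apply toH_inj
      rw [toH_ofH, toH_add, toH_add, Rep.hk_mul, toH_ofH, toH_ofH] }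

open scoped Classical in
/-- `T_ℓ` -/
def Tl (N M n ℓ : ℕ) : AddMonoid.End (V N M n) :=
  if h : Good N ℓ then Tg N M n h else 0

theorem toH_Tl {ℓ : ℕ} (h : Good N ℓ) {δ : S2} (hδ : IsDel N M ℓ δ) (φ : V N M n) :
    toH (Tl N M n ℓ φ) = (rep_alp h hδ).hk (toH φ) := by
  have e : Tl N M n ℓ = Tg N M n h := dif_pos h
  have e2 : toH (Tg N M n h φ) =
      (rep_alp h (exists_isDel N M ℓ (good_coprime h)).choose_spec).hk (toH φ) :=
    toH_ofH _ (rep_neg _ _ (toH_neg φ))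
  rw [e]
  exact e2.trans (hk_alp h hδ (exists_isDel N M ℓ (good_coprime h)).choose_spec _)

theorem isT_Tl {ℓ : ℕ} (h : Good N ℓ) (φ : V N M n) : IsT N M n ℓ φ (Tl N M n ℓ φ) := by
  intro δ hδ γ hγ
  refine ⟨(rep_alp h hδ).perm ⟨γ, hγ⟩, fun i => ((rep_alp h hδ).el ⟨γ, hγ⟩ i : Gs N M), ?_, ?_, ?_⟩
  · intro i
    exact ((rep_alp h hδ).el ⟨γ, hγ⟩ i).2
  · intro i
    exact (rep_alp h hδ).eq ⟨γ, hγ⟩ i
  · have := congrArg (fun f => (f ⟨γ, hγ⟩).toAdd) (toH_Tl h hδ φ)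
    simp only [Rep.hk_apply, toAdd_prod] at this
    exact this

theorem conj_mem {a : ℤ} {δ : S2} (hδ : IsDel N M a δ) (γ : S2) :
    InG N M (δ * γ * δ⁻¹) ↔ InG N M γ := by
  have key : ∀ {a : ℤ} {δ : S2}, IsDel N M a δ → ∀ γ : S2, InG N M γ →
      InG N M (δ * γ * δ⁻¹) := by
    intro a δ hδ γ hγ
    apply nrm_dia hδ γ hγ
    rw [← Matrix.SpecialLinearGroup.coe_mul, ← Matrix.SpecialLinearGroup.coe_mul,
      inv_mul_cancel_right]
  refine ⟨fun h => ?_, key hδ γ⟩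
  have hδ' : IsDel N M (δ⁻¹ 1 1) δ⁻¹ := by
    have e : ((δ⁻¹ : S2) : M2) = !![δ 1 1, -δ 0 1; -δ 1 0, δ 0 0] := by
      rw [Matrix.SpecialLinearGroup.coe_inv, Matrix.adjugate_fin_two]
    refine ⟨?_, ?_, by rw [sub_self]; exact dvd_zero _⟩
    · show _ ∣ ((δ⁻¹ : S2) : M2) 1 0
      rw [e]; exact (dvd_neg).2 hδ.1
    · show _ ∣ ((δ⁻¹ : S2) : M2) 0 1
      rw [e]; exact (dvd_neg).2 hδ.2.1
  have := key hδ' _ h
  have e : δ⁻¹ * (δ * γ * δ⁻¹) * δ⁻¹⁻¹ = γ := by group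
  rwa [e] at this

/-- quotient of two diamond matrices -/
theorem del_quot {a b : ℤ} (ha : IsCoprime a ((N * 2 ^ M : ℕ) : ℤ)) {δ δ' : S2}
    (hab : ((N * 2 ^ M : ℕ) : ℤ) ∣ a - b) (hδ : IsDel N M a δ) (hδ' : IsDel N M b δ') :
    InG N M (δ' * δ⁻¹) := by
  have e : ((δ⁻¹ : S2) : M2) = !![δ 1 1, -δ 0 1; -δ 1 0, δ 0 0] := by
    rw [Matrix.SpecialLinearGroup.coe_inv, Matrix.adjugate_fin_two]
  have em : ((δ' * δ⁻¹ : S2) : M2) = !![δ' 0 0 * δ 1 1 - δ' 0 1 * δ 1 0,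
      -δ' 0 0 * δ 0 1 + δ' 0 1 * δ 0 0; δ' 1 0 * δ 1 1 - δ' 1 1 * δ 1 0,
      -δ' 1 0 * δ 0 1 + δ' 1 1 * δ 0 0] := by
    rw [Matrix.SpecialLinearGroup.coe_mul, e]
    ext i j
    fin_cases i <;> fin_cases j <;> simp [Matrix.mul_apply, Fin.sum_univ_two] <;> ring
  obtain ⟨x, hx⟩ := hδ.1
  obtain ⟨y, hy⟩ := hδ.2.1
  obtain ⟨z, hz⟩ := hδ.2.2
  obtain ⟨x', hx'⟩ := hδ'.1
  obtain ⟨y', hy'⟩ := hδ'.2.1
  obtain ⟨z', hz'⟩ := hδ'.2.2
  obtain ⟨w, hw⟩ := hab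
  have hd := det_eq δ
  refine ⟨?_, ?_, Or.inl ?_⟩
  · show _ ∣ ((δ' * δ⁻¹ : S2) : M2) 1 0
    rw [em]
    exact ⟨x' * δ 1 1 - δ' 1 1 * x, by simp [hx, hx']; ring⟩
  · show _ ∣ ((δ' * δ⁻¹ : S2) : M2) 0 1
    rw [em]
    exact ⟨-δ' 0 0 * y + y' * δ 0 0, by simp [hy, hy']; ring⟩
  · show _ ∣ ((δ' * δ⁻¹ : S2) : M2) 1 1 - 1
    rw [em]
    refine ⟨-x' * δ 0 1 + (z' - w - z) * δ 0 0 + x * δ 0 1, ?_⟩
    show -δ' 1 0 * δ 0 1 + δ' 1 1 * δ 0 0 - 1 = _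
    linear_combination (-δ 0 1) * hx' + (δ 0 0) * hz' - (δ 0 0) * hw - (δ 0 0) * hz +
      (δ 0 1) * hx + hd

/-- the diamond operator does not depend on the matrix -/
theorem dia_indep (φ : V N M n) {a b : ℤ} (ha : IsCoprime a ((N * 2 ^ M : ℕ) : ℤ)) {δ δ' : S2}
    (hab : ((N * 2 ^ M : ℕ) : ℤ) ∣ a - b) (hδ : IsDel N M a δ) (hδ' : IsDel N M b δ')
    (γ : S2) : φ.1 (δ' * γ * δ'⁻¹) = φ.1 (δ * γ * δ⁻¹) := by
  by_cases hγ : InG N M γ
  · have h1 := del_quot ha hab hδ hδ'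
    set u := δ' * δ⁻¹ with hu
    have h2 : InG N M (δ * γ * δ⁻¹) := (conj_mem hδ γ).2 hγ
    have e : δ' * γ * δ'⁻¹ = u * (δ * γ * δ⁻¹) * u⁻¹ := by rw [hu]; group
    have hi : InG N M u⁻¹ := (Gs N M).inv_mem h1
    have h3 : φ.1 (u * (δ * γ * δ⁻¹) * u⁻¹) = φ.1 u + φ.1 (δ * γ * δ⁻¹) + φ.1 u⁻¹ := by
      rw [φ.2.2.1 _ _ ((Gs N M).mul_mem h1 h2) hi, φ.2.2.1 _ _ h1 h2]
    have h4 : φ.1 u + φ.1 u⁻¹ = 0 := by
      have h5 := φ.2.2.1 1 1 (Gs N M).one_mem (Gs N M).one_mem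
      rw [mul_one] at h5
      rw [← φ.2.2.1 _ _ h1 hi, mul_inv_cancel]
      exact add_eq_left.1 h5.symm
    rw [e, h3, add_right_comm, h4, zero_add]
  · rw [φ.2.1 _ (fun h => hγ ((conj_mem hδ' γ).1 h)), φ.2.1 _ (fun h => hγ ((conj_mem hδ γ).1 h))]

/-- `D_δ` -/
def Dd (N M n : ℕ) {a : ℤ} {δ : S2} (hδ : IsDel N M a δ) : AddMonoid.End (V N M n) where
  toFun φ := ⟨fun γ => φ.1 (δ * γ * δ⁻¹), by
    refine ⟨fun γ h => φ.2.1 _ (fun h' => h ((conj_mem hδ γ).1 h')), fun γ γ' h1 h2 => ?_, ?_⟩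
    · have e : δ * (γ * γ') * δ⁻¹ = (δ * γ * δ⁻¹) * (δ * γ' * δ⁻¹) := by group
      show φ.1 _ = _
      rw [e, φ.2.2.1 _ _ ((conj_mem hδ γ).2 h1) ((conj_mem hδ γ').2 h2)]
    · have e : δ * -1 * δ⁻¹ = -1 := by
        rw [mul_neg, mul_one, neg_mul, mul_inv_cancel]
      show φ.1 (δ * -1 * δ⁻¹) = 0
      rw [e, φ.2.2.2]⟩
  map_zero' := rfl
  map_add' _ _ := rfl

open scoped Classical in
/-- `D_a` -/
def Da (N M n : ℕ) (a : ℤ) : AddMonoid.End (V N M n) :=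
  if h : IsCoprime a (2 * N) then Dd N M n (exists_isDel N M a (unit_coprime h)).choose_spec else 0

theorem Da_apply {a : ℤ} (h : IsCoprime a (2 * N)) {δ : S2} (hδ : IsDel N M a δ) (φ : V N M n)
    (γ : S2) : (Da N M n a φ).1 γ = φ.1 (δ * γ * δ⁻¹) := by
  have e : Da N M n a = Dd N M n (exists_isDel N M a (unit_coprime h)).choose_spec := dif_pos h
  rw [e]
  exact dia_indep φ (a := a) (b := a) (unit_coprime h) (by rw [sub_self]; exact dvd_zero _) hδ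
    (exists_isDel N M a (unit_coprime h)).choose_spec γ

theorem toH_Da {a : ℤ} (h : IsCoprime a (2 * N)) {δ : S2} (hδ : IsDel N M a δ) (φ : V N M n) :
    toH (Da N M n a φ) = (rep_del hδ).hk (toH φ) := by
  ext γ
  rw [toH_apply, Da_apply h hδ, Rep.hk_apply]
  rw [Fintype.prod_unique]
  have hm : InG N M (δ * γ * δ⁻¹) := (conj_mem hδ γ).2 γ.2
  rw [((rep_del hδ).uniq (i := default) (γ := γ) (j := default) (γ' := ⟨δ * γ * δ⁻¹, hm⟩) (by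
    show (δ : M2) * ((γ : S2) : M2) = ((δ * γ * δ⁻¹ : S2) : M2) * (δ : M2)
    rw [← Matrix.SpecialLinearGroup.coe_mul, ← Matrix.SpecialLinearGroup.coe_mul,
      inv_mul_cancel_right])).2]
  rfl

theorem isDel_mul {a b : ℤ} {δ δ' : S2} (hδ : IsDel N M a δ) (hδ' : IsDel N M b δ') :
    IsDel N M (a * b) (δ' * δ) := by
  have e : ∀ i j, (δ' * δ) i j = δ' i 0 * δ 0 j + δ' i 1 * δ 1 j := by
    intro i j
    rw [Matrix.SpecialLinearGroup.coe_mul, Matrix.mul_apply, Fin.sum_univ_two]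
  obtain ⟨x, hx⟩ := hδ.1
  obtain ⟨y, hy⟩ := hδ.2.1
  obtain ⟨z, hz⟩ := hδ.2.2
  obtain ⟨x', hx'⟩ := hδ'.1
  obtain ⟨y', hy'⟩ := hδ'.2.1
  obtain ⟨z', hz'⟩ := hδ'.2.2
  refine ⟨?_, ?_, ?_⟩
  · rw [e, hx, hx']
    exact ⟨x' * δ 0 0 + δ' 1 1 * x, by ring⟩
  · rw [e, hy, hy']
    exact ⟨δ' 0 0 * y + y' * δ 1 1, by ring⟩
  · rw [e, hx']
    exact ⟨x' * δ 0 1 + z' * δ 1 1 + b * z, by linear_combination δ 1 1 * hz' + b * hz⟩

theorem red_of_dvd {L : ℕ} {X Y : M2} (h : ∀ i j, (L : ℤ) ∣ X i j - Y i j) :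
    red L X = red L Y := by
  have c : ∀ i j, ((X i j : ℤ) : ZMod L) = Y i j := by
    intro i j
    have := (ZMod.intCast_zmod_eq_zero_iff_dvd (X i j - Y i j) L).2 (h i j)
    rw [Int.cast_sub] at this
    exact sub_eq_zero.1 this
  rw [red_eq_iff]
  exact ⟨⟨c 0 0, c 0 1⟩, c 1 0, c 1 1⟩

/-- the class of `T_ℓ` commutes with the diamond matrices up to `G(N, M)` -/
theorem comm_del {a : ℤ} {δ : S2} (hδ : IsDel N M a δ) {ℓ : ℕ} (hℓ : Good N ℓ) :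
    ∃ g ∈ Gs N M, red (N * 2 ^ M) (!![1, 0; 0, (ℓ : ℤ)] * (δ : M2)) =
      red (N * 2 ^ M) ((g : M2) * ((δ : M2) * !![1, 0; 0, (ℓ : ℤ)])) := by
  obtain ⟨x, hx⟩ := hδ.1
  obtain ⟨y, hy⟩ := hδ.2.1
  have hd := det_eq δ
  have hc : IsCoprime ((ℓ : ℤ) * δ 1 1) ((N * 2 ^ M : ℕ) : ℤ) := by
    refine (good_coprime hℓ).mul_left ⟨δ 0 0, -(δ 0 1 * x), ?_⟩
    rw [hx] at hd
    linear_combination hd
  obtain ⟨u, v, huv⟩ := hc
  refine ⟨upp M (y * (1 - ℓ) * u), upp_mem N M _, red_of_dvd ?_⟩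
  intro i j
  fin_cases i <;> fin_cases j
  · refine ⟨-(((2 ^ M : ℕ) : ℤ) * (y * (1 - ℓ) * u) * x), ?_⟩
    simp only [Fin.zero_eta, Matrix.mul_apply, Fin.sum_univ_two, upp, Matrix.of_apply,
      Matrix.cons_val', Matrix.cons_val_zero, Matrix.cons_val_one, Matrix.cons_val_fin_one]
    linear_combination (-(((2 ^ M : ℕ) : ℤ) * (y * (1 - ℓ) * u))) * hx
  · refine ⟨((2 ^ M : ℕ) : ℤ) * y * (1 - ℓ) * v, ?_⟩
    simp only [Fin.zero_eta, Fin.mk_one, Matrix.mul_apply, Fin.sum_univ_two, upp, Matrix.of_apply,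
      Matrix.cons_val', Matrix.cons_val_zero, Matrix.cons_val_one, Matrix.cons_val_fin_one]
    linear_combination (1 - (ℓ : ℤ)) * hy + (((2 ^ M : ℕ) : ℤ) * y * (1 - ℓ)) * (-huv)
  · refine ⟨(ℓ - 1) * x, ?_⟩
    simp only [Fin.zero_eta, Fin.mk_one, Matrix.mul_apply, Fin.sum_univ_two, upp, Matrix.of_apply,
      Matrix.cons_val', Matrix.cons_val_zero, Matrix.cons_val_one, Matrix.cons_val_fin_one]
    linear_combination ((ℓ : ℤ) - 1) * hx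
  · refine ⟨0, ?_⟩
    simp only [Fin.mk_one, Matrix.mul_apply, Fin.sum_univ_two, upp, Matrix.of_apply,
      Matrix.cons_val', Matrix.cons_val_zero, Matrix.cons_val_one, Matrix.cons_val_fin_one]
    ring

theorem hex : HEXStmt := by
  intro N M n _ hM
  refine ⟨Tl N M n, Da N M n, fun ℓ h φ => isT_Tl h φ, ?_, ?_, ?_, ?_, ?_⟩
  · intro a ha φ δ hδ γ
    exact Da_apply ha hδ φ γ
  · intro a b ha hb
    obtain ⟨δ, hδ⟩ := exists_isDel N M a (unit_coprime ha)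
    obtain ⟨δ', hδ'⟩ := exists_isDel N M b (unit_coprime hb)
    apply AddMonoidHom.ext
    intro φ
    apply Subtype.ext
    funext γ
    have h1 := Da_apply (ha.mul_left hb) (isDel_mul hδ hδ') φ γ
    have h2 := Da_apply ha hδ (Da N M n b φ) γ
    have h3 := Da_apply hb hδ' φ (δ * γ * δ⁻¹)
    refine h1.trans ((h2.trans (h3.trans ?_)).symm)
    congr 1
    group
  · intro a b ha hab
    obtain ⟨δ, hδ⟩ := exists_isDel N M a (unit_coprime ha)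
    have hb : IsCoprime b (2 * N) := by
      have h2 : (2 * N : ℤ) ∣ ((N * 2 ^ M : ℕ) : ℤ) := by
        obtain ⟨m, rfl⟩ := Nat.exists_eq_add_of_le hM
        exact ⟨2 ^ (m + 1), by push_cast; ring⟩
      obtain ⟨k, hk⟩ := h2.trans hab
      have : a = b + 2 * N * k := by linear_combination hk
      rw [this] at ha
      exact IsCoprime.of_add_mul_left_left ha
    apply AddMonoidHom.ext
    intro φ
    apply Subtype.ext
    funext γ
    have hδ' : IsDel N M b δ := by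
      refine ⟨hδ.1, hδ.2.1, ?_⟩
      have := dvd_add hδ.2.2 hab
      rwa [sub_add_sub_cancel] at this
    exact (Da_apply ha hδ φ γ).trans (Da_apply hb hδ' φ γ).symm
  · intro a ha ℓ hℓ
    obtain ⟨δ, hδ⟩ := exists_isDel N M a (unit_coprime ha)
    obtain ⟨δ', hδ'⟩ := exists_isDel N M ℓ (good_coprime hℓ)
    apply AddMonoidHom.ext
    intro φ
    apply toH_inj
    show toH (Da N M n a (Tl N M n ℓ φ)) = toH (Tl N M n ℓ (Da N M n a φ))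
    rw [toH_Da ha hδ, toH_Tl hℓ hδ', toH_Tl hℓ hδ', toH_Da ha hδ]
    exact hkG_comm (FamG.unit _ _ δ) (famG_alp N M ℓ hℓ δ' hδ')
      (by rw [Matrix.SpecialLinearGroup.det_coe]; exact one_ne_zero) (diag_ne hℓ)
      (by rw [Matrix.SpecialLinearGroup.det_coe]; exact isCoprime_one_left)
      (by rw [det_diag]; exact good_coprime hℓ)
      (by rw [Matrix.SpecialLinearGroup.det_coe]; exact isCoprime_one_left)
      (nrm_dia hδ) (nrm_diag (good_coprime hℓ)) (comm_del hδ hℓ) _ _ _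
  · intro ℓ ℓ' hℓ hℓ'
    by_cases hll : ℓ = ℓ'
    · rw [hll]
    obtain ⟨δ, hδ⟩ := exists_isDel N M ℓ (good_coprime hℓ)
    obtain ⟨δ', hδ'⟩ := exists_isDel N M ℓ' (good_coprime hℓ')
    apply AddMonoidHom.ext
    intro φ
    apply toH_inj
    show toH (Tl N M n ℓ (Tl N M n ℓ' φ)) = toH (Tl N M n ℓ' (Tl N M n ℓ φ))
    rw [toH_Tl hℓ hδ, toH_Tl hℓ' hδ', toH_Tl hℓ' hδ', toH_Tl hℓ hδ]
    apply hkG_comm (famG_alp N M ℓ hℓ δ hδ) (famG_alp N M ℓ' hℓ' δ' hδ') (diag_ne hℓ) (diag_ne hℓ')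
      (by rw [det_diag]; exact good_coprime hℓ) (by rw [det_diag]; exact good_coprime hℓ')
      (by
        rw [det_diag, det_diag, Nat.isCoprime_iff_coprime]
        exact (Nat.coprime_primes hℓ.1 hℓ'.1).2 hll)
      (nrm_diag (good_coprime hℓ)) (nrm_diag (good_coprime hℓ'))
    refine ⟨1, (Gs N M).one_mem, ?_⟩
    rw [Matrix.SpecialLinearGroup.coe_one, one_mul]
    ext i j
    fin_cases i <;> fin_cases j <;> simp [Matrix.mul_apply, Fin.sum_univ_two, mul_comm]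

end

end Vale.Agent.P022.H527.L3

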