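import Vale.Agent.P022.H527.L3.Cos

/-!
P022-L3, row [COS], explicit part: the matrices `[1, N j; 0, ℓ]`, `δ_ℓ [ℓ, 0; 0, 1]` and the
diamond matrices.
-/

namespace Vale.Agent.P022.H527.L3

open Matrix Matrix.SpecialLinearGroup

/-- integral two by two matrices -/
abbrev M2 := Matrix (Fin 2) (Fin 2) ℤ

/-- the group `SL_2(ℤ)` -/
abbrev S2 := Matrix.SpecialLinearGroup (Fin 2) ℤ

/-- reduction modulo `N` -/
def red (N : ℕ) : M2 →+* Matrix (Fin 2) (Fin 2) (ZMod N) := (Int.castRingHom (ZMod N)).mapMatrix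

theorem red_eq_iff (N : ℕ) (X Y : M2) :
    red N X = red N Y ↔ ((X 0 0 : ZMod N) = Y 0 0 ∧ (X 0 1 : ZMod N) = Y 0 1) ∧
      ((X 1 0 : ZMod N) = Y 1 0 ∧ (X 1 1 : ZMod N) = Y 1 1) := by
  rw [← Matrix.ext_iff]
  simp only [Fin.forall_fin_two, red, RingHom.mapMatrix_apply, Matrix.map_apply,
    Int.coe_castRingHom]

/-- the inclusion of a subgroup of `SL_2(ℤ)` in the monoid of matrices -/
def rho (Γ : Subgroup S2) : Γ →* M2 where
  toFun γ := ((γ : S2) : M2)
  map_one' := by simp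
  map_mul' := by intro a b; simp

@[simp] theorem rho_apply (Γ : Subgroup S2) (γ : Γ) : rho Γ γ = ((γ : S2) : M2) := rfl

/-- `Γ` is normalised by `A` modulo `N` (and contains the principal subgroup of level `N`) -/
def Nrm (N : ℕ) (A : M2) (Γ : Subgroup S2) : Prop :=
  ∀ γ ∈ Γ, ∀ γ' : S2, red N (A * γ) = red N (γ' * A) → γ' ∈ Γ

/-- a family of matrices of the class of `A` modulo `N` -/
structure Fam (N : ℕ) (A : M2) {ι : Type*} (α : ι → M2) : Prop where
  det : ∀ i, (α i).det = A.det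
  cg : ∀ i, red N (α i) = red N A
  fac : ∀ ω : M2, A.det ∣ ω.det → ∃ i ω', ω = ω' * α i
  inj : ∀ i j, ∀ ω ω' : M2, ω * α i = ω' * α j → IsCoprime ω.det A.det → i = j

theorem cancel_right {X Y Z : M2} (hZ : Z.det ≠ 0) (h : X * Z = Y * Z) : X = Y := by
  have h1 : X * Z * Z.adjugate = Y * Z * Z.adjugate := by rw [h]
  rw [mul_assoc, mul_assoc, Matrix.mul_adjugate, Matrix.mul_smul, Matrix.mul_smul, mul_one,
    mul_one] at h1
  exact smul_right_injective _ hZ h1

theorem red_cancel {N : ℕ} {A X Y : M2} (hA : IsCoprime A.det (N : ℤ))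
    (h : red N (X * A) = red N (Y * A)) : red N X = red N Y := by
  have hu : IsUnit ((A.det : ℤ) : ZMod N) := by
    obtain ⟨a, b, hab⟩ := hA
    refine IsUnit.of_mul_eq_one (a : ZMod N) ?_
    have := congrArg (Int.cast : ℤ → ZMod N) hab
    rw [Int.cast_add, Int.cast_mul, Int.cast_mul, Int.cast_natCast, ZMod.natCast_self, mul_zero,
      add_zero, Int.cast_one] at this
    rw [mul_comm]; exact this
  have hr : ∀ c : ℤ, red N (c • (1 : M2)) = ((c : ℤ) : ZMod N) • (1 : Matrix (Fin 2) (Fin 2) _) := by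
    intro c
    rw [map_zsmul, map_one, ← Int.cast_smul_eq_zsmul (ZMod N)]
  have h1 : red N (X * A * A.adjugate) = red N (Y * A * A.adjugate) := by
    rw [map_mul, h, ← map_mul]
  rw [mul_assoc, mul_assoc, Matrix.mul_adjugate, map_mul, map_mul, hr, Matrix.mul_smul,
    Matrix.mul_smul, mul_one, mul_one] at h1
  exact hu.smul_left_cancel.1 h1

namespace Fam

variable {N : ℕ} {A B : M2} {ι κ : Type*} {α : ι → M2} {β : κ → M2}

/-- a family gives a system of representatives -/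
theorem rep (h : Fam N A α) (h0 : A.det ≠ 0) (hc : IsCoprime A.det (N : ℤ)) {Γ : Subgroup S2}
    (hΓ : Nrm N A Γ) : Rep (rho Γ) α where
  ex i γ := by
    obtain ⟨j, ω', hω⟩ := h.fac (α i * ((γ : S2) : M2)) (by rw [det_mul, h.det i]; simp)
    have hd : ω'.det = 1 := by
      have := congrArg Matrix.det hω
      rw [det_mul, det_mul, h.det, h.det, Matrix.SpecialLinearGroup.det_coe, mul_one] at this
      exact (mul_right_cancel₀ h0 (by rw [one_mul]; exact this)).symm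
    refine ⟨j, ⟨⟨ω', hd⟩, hΓ γ γ.2 _ ?_⟩, hω⟩
    have h1 : red N (α i * ((γ : S2) : M2)) = red N (A * ((γ : S2) : M2)) := by
      rw [map_mul, h.cg, map_mul]
    have h2 : red N (ω' * α j) = red N (ω' * A) := by rw [map_mul, h.cg, map_mul]
    rw [← h1, hω, h2]
  inj i j γ γ' e := by
    have hij : i = j := h.inj i j _ _ e (by
      rw [rho_apply, Matrix.SpecialLinearGroup.det_coe]; exact isCoprime_one_left)
    subst hij
    refine ⟨rfl, ?_⟩
    have h1 : ((γ : S2) : M2) = ((γ' : S2) : M2) :=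
      cancel_right (by rw [h.det]; exact h0) e
    exact Subtype.ext (Subtype.ext h1)

/-- two families of the same class are equivalent -/
theorem equiv (h : Fam N A α) (h' : Fam N B β) (hd : A.det = B.det) (hr : red N A = red N B)
    (h0 : A.det ≠ 0) (hc : IsCoprime A.det (N : ℤ)) {Γ : Subgroup S2} (hΓ : Nrm N A Γ) (k : κ) :
    ∃ i, ∃ δ : Γ, β k = rho Γ δ * α i := by
  obtain ⟨i, ω', hω⟩ := h.fac (β k) (by rw [h'.det k, hd])
  have hd1 : ω'.det = 1 := by
    have := congrArg Matrix.det hω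
    rw [det_mul, h.det, h'.det, ← hd] at this
    exact (mul_right_cancel₀ h0 (by rw [one_mul]; exact this)).symm
  refine ⟨i, ⟨⟨ω', hd1⟩, hΓ 1 Γ.one_mem _ ?_⟩, hω⟩
  have h2 : red N (ω' * α i) = red N (ω' * A) := by rw [map_mul, h.cg, map_mul]
  rw [Matrix.SpecialLinearGroup.coe_one, mul_one, ← h2, ← hω, h'.cg, hr]

/-- products of coprime determinants -/
theorem mul (h : Fam N A α) (h' : Fam N B β) (h0 : A.det ≠ 0) (hAB : IsCoprime A.det B.det) :
    Fam N (B * A) (fun p : κ × ι => β p.1 * α p.2) where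
  det p := by rw [det_mul, det_mul, h.det, h'.det]
  cg p := by rw [map_mul, map_mul, h.cg, h'.cg]
  fac ω hω := by
    rw [det_mul] at hω
    obtain ⟨i, ω', h1⟩ := h.fac ω (dvd_trans (Dvd.intro_left _ rfl) hω)
    obtain ⟨j, ω'', h2⟩ := h'.fac ω' (by
      rw [h1, det_mul, h.det] at hω
      exact (mul_dvd_mul_iff_right h0).1 hω)
    exact ⟨(j, i), ω'', by rw [h1, h2, mul_assoc]⟩
  inj p q ω ω' e hc := by
    obtain ⟨j, i⟩ := p
    obtain ⟨j', i'⟩ := q
    simp only [← mul_assoc] at e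
    rw [det_mul] at hc
    have hi : i = i' := h.inj _ _ _ _ e (by
      rw [det_mul, h'.det]
      exact IsCoprime.mul_left (IsCoprime.of_mul_right_right hc) hAB.symm)
    subst hi
    have e' := cancel_right (by rw [h.det]; exact h0) e
    have hj : j = j' := h'.inj _ _ _ _ e' (IsCoprime.of_mul_right_left hc)
    rw [hj]

/-- one matrix of determinant one -/
theorem unit (N : ℕ) (δ : S2) : Fam N (δ : M2) (fun _ : Unit => (δ : M2)) where
  det _ := rfl
  cg _ := rfl
  fac ω _ := ⟨(), ω * ((δ⁻¹ : S2) : M2), by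
    rw [mul_assoc, ← Matrix.SpecialLinearGroup.coe_mul, inv_mul_cancel,
      Matrix.SpecialLinearGroup.coe_one, mul_one]⟩
  inj _ _ _ _ _ _ := rfl

end Fam

/-! The operators of two families of the same class agree; commutation. -/

section hk

variable {N : ℕ} {A B : M2} {ι κ : Type*} [Fintype ι] [Fintype κ] {α : ι → M2} {β : κ → M2}
  {Γ : Subgroup S2} {C : Type*} [CommGroup C]

theorem hk_eq (h : Fam N A α) (h' : Fam N B β) (hd : A.det = B.det) (hr : red N A = red N B)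
    (h0 : A.det ≠ 0) (hc : IsCoprime A.det (N : ℤ)) (hΓ : Nrm N A Γ)
    (r : Rep (rho Γ) α) (r' : Rep (rho Γ) β) (φ : Γ →* C) : r'.hk φ = r.hk φ := by
  have hΓ' : Nrm N B Γ := by
    intro γ hγ γ' e
    apply hΓ γ hγ γ'
    rw [map_mul, hr, ← map_mul, e, map_mul, ← hr, ← map_mul]
  exact r.hk_eq_of_ex r' (fun k => h.equiv h' hd hr h0 hc hΓ k)
    (fun i => h'.equiv h hd.symm hr.symm (hd ▸ h0) (hd ▸ hc) hΓ' i) φ

theorem Nrm.mul (hA : Nrm N A Γ) (hB : Nrm N B Γ) (hAd : IsCoprime A.det (N : ℤ))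
    (key : ∀ γ ∈ Γ, ∃ γ₁ : S2, red N (A * γ) = red N (γ₁ * A)) :
    Nrm N (B * A) Γ := by
  intro γ hγ γ' e
  obtain ⟨γ₁, h1⟩ := key γ hγ
  apply hB γ₁ (hA γ hγ γ₁ h1) γ'
  apply red_cancel (N := N) (A := A) hAd
  calc red N (B * γ₁ * A) = red N (B * (γ₁ * A)) := by rw [mul_assoc]
    _ = red N (B * (A * γ)) := by rw [map_mul, ← h1, ← map_mul]
    _ = red N (B * A * γ) := by rw [mul_assoc]
    _ = red N (γ' * (B * A)) := e
    _ = red N (γ' * B * A) := by rw [mul_assoc]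

theorem Fam.nrm_mul (hα : Fam N A α) (hA0 : A.det ≠ 0) (hA : Nrm N A Γ) (hB : Nrm N B Γ)
    (hAd : IsCoprime A.det (N : ℤ)) [Nonempty ι] : Nrm N (B * A) Γ := by
  apply Nrm.mul hA hB hAd
  intro γ hγ
  obtain ⟨i⟩ := ‹Nonempty ι›
  obtain ⟨j, γ', h1⟩ := (hα.rep hA0 hAd hA).ex i ⟨γ, hγ⟩
  refine ⟨γ', ?_⟩
  have h2 : red N (α i * (γ : M2)) = red N (A * (γ : M2)) := by rw [map_mul, hα.cg, map_mul]
  have h3 : red N (((γ' : S2) : M2) * α j) = red N (((γ' : S2) : M2) * A) := by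
    rw [map_mul, hα.cg, map_mul]
  rw [← h2, ← h3]
  exact congrArg (red N) h1

/-- the operators of two classes of coprime determinants which commute modulo `N` commute -/
theorem hk_comm (hα : Fam N A α) (hβ : Fam N B β) (hA0 : A.det ≠ 0) (hB0 : B.det ≠ 0)
    (hAc : IsCoprime A.det (N : ℤ)) (hBc : IsCoprime B.det (N : ℤ)) (hAB : IsCoprime A.det B.det)
    (hA : Nrm N A Γ) (hB : Nrm N B Γ) (hcm : red N (A * B) = red N (B * A))
    (r : Rep (rho Γ) α) (r' : Rep (rho Γ) β) (φ : Γ →* C) :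
    r.hk (r'.hk φ) = r'.hk (r.hk φ) := by
  cases isEmpty_or_nonempty ι with
  | inl hι =>
    obtain ⟨i, _⟩ := hα.fac A dvd_rfl
    exact (hι.false i).elim
  | inr hι =>
  cases isEmpty_or_nonempty κ with
  | inl hκ =>
    obtain ⟨i, _⟩ := hβ.fac B dvd_rfl
    exact (hκ.false i).elim
  | inr hκ =>
  have hBA : Nrm N (B * A) Γ := hα.nrm_mul hA0 hA hB hAc
  have hAB' : Nrm N (A * B) Γ := hβ.nrm_mul hB0 hB hA hBc
  have f1 := hα.mul hβ hA0 hAB
  have f2 := hβ.mul hα hB0 hAB.symm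
  have d1 : (B * A).det ≠ 0 := by rw [det_mul]; exact mul_ne_zero hB0 hA0
  have d2 : (A * B).det ≠ 0 := by rw [det_mul]; exact mul_ne_zero hA0 hB0
  have c1 : IsCoprime (B * A).det (N : ℤ) := by rw [det_mul]; exact hBc.mul_left hAc
  have c2 : IsCoprime (A * B).det (N : ℤ) := by rw [det_mul]; exact hAc.mul_left hBc
  rw [r.hk_hk r' (f1.rep d1 c1 hBA), r'.hk_hk r (f2.rep d2 c2 hAB')]
  exact hk_eq f2 f1 (by rw [det_mul, det_mul, mul_comm]) hcm d2 c2 hAB' _ _ φ

end hk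

/-! The matrices `[1, N j; 0, ℓ]` and `δ [ℓ, 0; 0, 1]`. -/

/-- the family `α_j = [1, N j; 0, ℓ]`, `α_∞ = δ [ℓ, 0; 0, 1]` -/
def al (N ℓ : ℕ) (δ : S2) : Option (Fin ℓ) → M2
  | some j => !![1, N * j; 0, ℓ]
  | none => (δ : M2) * !![(ℓ : ℤ), 0; 0, 1]

theorem red_al (N ℓ : ℕ) (δ : S2) (h1 : ((ℓ : ℤ) * δ 0 0 : ZMod N) = 1)
    (h2 : (δ 1 0 : ZMod N) = 0) (h3 : (δ 0 1 : ZMod N) = 0) (h4 : (δ 1 1 : ZMod N) = ℓ)
    (i : Option (Fin ℓ)) : red N (al N ℓ δ i) = red N !![1, 0; 0, (ℓ : ℤ)] := by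
  rw [red_eq_iff]
  cases i with
  | none =>
    simp only [al, Matrix.mul_apply, Fin.sum_univ_two]
    simp only [Matrix.of_apply, Matrix.cons_val', Matrix.cons_val_zero, Matrix.cons_val_one,
      Matrix.cons_val_fin_one]
    push_cast
    push_cast at h1
    refine ⟨⟨?_, ?_⟩, ?_, ?_⟩
    · rw [mul_zero, add_zero, mul_comm, h1]
    · rw [h3]; ring
    · rw [h2]; ring
    · rw [h4]; ring
  | some j =>
    simp [al]

theorem det_al (N ℓ : ℕ) (δ : S2) (i : Option (Fin ℓ)) :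
    (al N ℓ δ i).det = (!![1, 0; 0, (ℓ : ℤ)] : M2).det := by
  cases i with
  | none => simp [al, Matrix.det_fin_two]
  | some j => simp [al, Matrix.det_fin_two]

/-- the family of a prime `ℓ` -/
theorem fam_al (N ℓ : ℕ) (hℓ : ℓ.Prime) (hN : ¬ ℓ ∣ N) (δ : S2)
    (h1 : ((ℓ : ℤ) * δ 0 0 : ZMod N) = 1)
    (h2 : (δ 1 0 : ZMod N) = 0) (h3 : (δ 0 1 : ZMod N) = 0) (h4 : (δ 1 1 : ZMod N) = ℓ) :
    Fam N !![1, 0; 0, (ℓ : ℤ)] (al N ℓ δ) where
  det := det_al N ℓ δ
  cg := red_al N ℓ δ h1 h2 h3 h4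
  fac ω hω := by
    have : Fact ℓ.Prime := ⟨hℓ⟩
    have : NeZero ℓ := ⟨hℓ.ne_zero⟩
    rw [Matrix.det_fin_two_of, Matrix.det_fin_two] at hω
    simp only [one_mul, mul_zero, sub_zero] at hω
    set a := ω 0 0 with ha
    set b := ω 0 1 with hb
    set c := ω 1 0 with hc
    set d := ω 1 1 with hd
    have hω' : (a : ZMod ℓ) * d = b * c := by
      have := (ZMod.intCast_zmod_eq_zero_iff_dvd (a * d - b * c) ℓ).2 hω
      push_cast at this
      exact sub_eq_zero.1 this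
    have hN' : (N : ZMod ℓ) ≠ 0 := by
      rwa [Ne, ZMod.natCast_eq_zero_iff]
    have hωe : ω = !![a, b; c, d] := Matrix.eta_fin_two ω
    by_cases hac : (a : ZMod ℓ) = 0 ∧ (c : ZMod ℓ) = 0
    · obtain ⟨a', ha'⟩ := (ZMod.intCast_zmod_eq_zero_iff_dvd a ℓ).1 hac.1
      obtain ⟨c', hc'⟩ := (ZMod.intCast_zmod_eq_zero_iff_dvd c ℓ).1 hac.2
      refine ⟨none, !![a', b; c', d] * ((δ⁻¹ : S2) : M2), ?_⟩
      rw [al, mul_assoc, ← mul_assoc ((δ⁻¹ : S2) : M2), ← Matrix.SpecialLinearGroup.coe_mul,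
        inv_mul_cancel, Matrix.SpecialLinearGroup.coe_one, one_mul, hωe]
      ext i j
      fin_cases i <;> fin_cases j <;> simp [Matrix.mul_apply, Fin.sum_univ_two] <;> linarith
    · have hj : ∃ j : ZMod ℓ, (b : ZMod ℓ) = N * j * a ∧ (d : ZMod ℓ) = N * j * c := by
        by_cases ha0 : (a : ZMod ℓ) = 0
        · have hc0 : (c : ZMod ℓ) ≠ 0 := fun h => hac ⟨ha0, h⟩
          refine ⟨d * (c : ZMod ℓ)⁻¹ * (N : ZMod ℓ)⁻¹, ?_, ?_⟩
          · have : (b : ZMod ℓ) = 0 := by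
              have : (b : ZMod ℓ) * c = 0 := by rw [← hω', ha0, zero_mul]
              exact (mul_eq_zero.1 this).resolve_right hc0
            rw [this, ha0, mul_zero]
          · field_simp
        · refine ⟨b * (a : ZMod ℓ)⁻¹ * (N : ZMod ℓ)⁻¹, by field_simp, ?_⟩
          have : (d : ZMod ℓ) = (a : ZMod ℓ)⁻¹ * (b * c) := by
            rw [← hω', ← mul_assoc, inv_mul_cancel₀ ha0, one_mul]
          rw [this]
          field_simp
      obtain ⟨j, hj1, hj2⟩ := hj
      have hjv : ((j.val : ℕ) : ZMod ℓ) = j := ZMod.natCast_zmod_val j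
      have e1 : (ℓ : ℤ) ∣ b - N * j.val * a := by
        rw [← ZMod.intCast_zmod_eq_zero_iff_dvd]
        push_cast
        rw [hjv, hj1, sub_self]
      have e2 : (ℓ : ℤ) ∣ d - N * j.val * c := by
        rw [← ZMod.intCast_zmod_eq_zero_iff_dvd]
        push_cast
        rw [hjv, hj2, sub_self]
      obtain ⟨b', hb'⟩ := e1
      obtain ⟨d', hd'⟩ := e2
      have hv := ZMod.val_lt j
      clear hjv hj1 hj2
      generalize j.val = v at *
      refine ⟨some ⟨v, hv⟩, !![a, b'; c, d'], ?_⟩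
      rw [hωe, al]
      ext i j
      fin_cases i <;> fin_cases j <;> simp [Matrix.mul_apply, Fin.sum_univ_two] <;> linarith
  inj i j ω ω' e hc := by
    have hℓ' : Prime (ℓ : ℤ) := Nat.prime_iff_prime_int.1 hℓ
    rw [Matrix.det_fin_two_of] at hc
    simp only [one_mul, mul_zero, sub_zero] at hc
    have hnd : ¬ (ℓ : ℤ) ∣ ω.det := fun h => hℓ'.not_isUnit (hc.isUnit_of_dvd' h dvd_rfl)
    have hnd' : ¬ (ℓ : ℤ) ∣ ω'.det := by
      have hdd : ω.det = ω'.det := by
        have := congrArg Matrix.det e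
        rw [det_mul, det_mul, det_al, det_al] at this
        refine mul_right_cancel₀ ?_ this
        rw [Matrix.det_fin_two_of]
        simpa using hℓ.ne_zero
      rwa [← hdd]
    have entry : ∀ r c, (ω * al N ℓ δ i) r c = (ω' * al N ℓ δ j) r c := by
      intro r c; rw [e]
    have none_some : ∀ (ω ω' : M2) (j : Fin ℓ), ω * al N ℓ δ none = ω' * al N ℓ δ (some j) →
        (ℓ : ℤ) ∣ ω'.det := by
      intro ω ω' j e
      have h00 := congrFun (congrFun e 0) 0
      have h10 := congrFun (congrFun e 1) 0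
      simp only [al, ← mul_assoc] at h00 h10
      rw [Matrix.mul_apply, Matrix.mul_apply] at h00 h10
      simp only [Fin.sum_univ_two, Matrix.of_apply, Matrix.cons_val', Matrix.cons_val_zero,
        Matrix.cons_val_one, Matrix.cons_val_fin_one, mul_zero, add_zero, mul_one] at h00 h10
      rw [Matrix.det_fin_two, ← h00, ← h10]
      exact dvd_sub (Dvd.intro_left _ (by ring : (ω * (δ : M2)) 0 0 * ω' 1 1 * ℓ = _))
        (Dvd.intro_left _ (by ring : ω' 0 1 * (ω * (δ : M2)) 1 0 * ℓ = _))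
    match i, j, e with
    | none, none, _ => rfl
    | none, some j, e => exact (hnd' (none_some _ _ _ e)).elim
    | some i, none, e => exact (hnd (none_some _ _ _ e.symm)).elim
    | some i, some j, e =>
      have h00 := congrFun (congrFun e 0) 0
      have h10 := congrFun (congrFun e 1) 0
      have h01 := congrFun (congrFun e 0) 1
      have h11 := congrFun (congrFun e 1) 1
      simp only [al] at h00 h10 h01 h11
      rw [Matrix.mul_apply, Matrix.mul_apply] at h00 h10 h01 h11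
      simp only [Fin.sum_univ_two, Matrix.of_apply, Matrix.cons_val', Matrix.cons_val_zero,
        Matrix.cons_val_one, Matrix.cons_val_fin_one, mul_zero, add_zero, mul_one] at h00 h10 h01 h11
      by_contra hij
      have hij' : ¬ (ℓ : ℤ) ∣ (N : ℤ) * ((i : ℕ) - (j : ℕ) : ℤ) := by
        intro hd
        rcases hℓ'.dvd_or_dvd hd with hd | hd
        · exact hN (Int.natCast_dvd_natCast.1 hd)
        · apply hij
          have := Int.eq_zero_of_abs_lt_dvd hd (by
            have h1 := i.2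
            have h2 := j.2
            rw [abs_lt]; constructor <;> omega)
          rw [Option.some_inj]
          ext
          omega
      apply hnd
      have d0 : (ℓ : ℤ) ∣ ω 0 0 * ((N : ℤ) * ((i : ℕ) - (j : ℕ) : ℤ)) :=
        ⟨ω' 0 1 - ω 0 1, by rw [← h00] at h01; linear_combination h01⟩
      have d1 : (ℓ : ℤ) ∣ ω 1 0 * ((N : ℤ) * ((i : ℕ) - (j : ℕ) : ℤ)) :=
        ⟨ω' 1 1 - ω 1 1, by rw [← h10] at h11; linear_combination h11⟩
      have d0' := (hℓ'.dvd_or_dvd d0).resolve_right hij'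
      have d1' := (hℓ'.dvd_or_dvd d1).resolve_right hij'
      rw [Matrix.det_fin_two]
      exact dvd_sub (Dvd.dvd.mul_right d0' _) (Dvd.dvd.mul_left d1' _)

end Vale.Agent.P022.H527.L3
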