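import Vale.Agent.P022.H527.L3.Mat
import Vale.Agent.P022.H138.L3.Defs

/-!
P022-L3, row [COS] / (H1): the groups `G(N, M)`, the matrices `[1, 2^M j; 0, ℓ]` and the operators
`T_ℓ`, `D_a` on homomorphisms.
-/

namespace Vale.Agent.P022.H527.L3

open Matrix Matrix.SpecialLinearGroup Vale.Agent.P022.L3

/-- a family of matrices of the class of `Γ A` modulo `L` -/
structure FamG (Γ : Subgroup S2) (L : ℕ) (A : M2) {ι : Type*} (α : ι → M2) : Prop where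
  det : ∀ i, (α i).det = A.det
  cg : ∀ i, ∃ g ∈ Γ, red L (α i) = red L (g * A)
  fac : ∀ ω : M2, A.det ∣ ω.det → ∃ i ω', ω = ω' * α i
  inj : ∀ i j, ∀ ω ω' : M2, ω * α i = ω' * α j → IsCoprime ω.det A.det → i = j

theorem coe_inv_mul (g : S2) (X : M2) : ((g⁻¹ : S2) : M2) * ((g : M2) * X) = X := by
  rw [← mul_assoc, ← Matrix.SpecialLinearGroup.coe_mul, inv_mul_cancel,
    Matrix.SpecialLinearGroup.coe_one, one_mul]

namespace FamG

variable {Γ : Subgroup S2} {L : ℕ} {A B : M2} {ι κ : Type*} {α : ι → M2} {β : κ → M2}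

theorem nonempty (h : FamG Γ L A α) : Nonempty ι := by
  obtain ⟨i, _⟩ := h.fac A dvd_rfl
  exact ⟨i⟩

/-- the decisive step: an integral matrix of determinant one between two members is in `Γ` -/
theorem mem (h : FamG Γ L A α) (hΓ : Nrm L A Γ) (γ : S2) (hγ : γ ∈ Γ) (g : S2) (hg : g ∈ Γ)
    (ω' : S2) (j : ι) (e : red L (g * A * γ) = red L (ω' * α j)) : ω' ∈ Γ := by
  obtain ⟨g', hg', h2⟩ := h.cg j
  have h3 : g⁻¹ * ω' * g' ∈ Γ := by
    apply hΓ γ hγ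
    have e1 : A * (γ : M2) = ((g⁻¹ : S2) : M2) * (g * A * γ) := by
      rw [mul_assoc (g : M2), coe_inv_mul]
    rw [e1, map_mul, e, ← map_mul, ← mul_assoc, map_mul, h2, ← map_mul]
    congr 1
    simp only [Matrix.SpecialLinearGroup.coe_mul, mul_assoc]
  have h4 : ω' = g * (g⁻¹ * ω' * g') * g'⁻¹ := by group
  rw [h4]
  exact Γ.mul_mem (Γ.mul_mem hg h3) (Γ.inv_mem hg')

/-- a family gives a system of representatives -/
theorem rep (h : FamG Γ L A α) (h0 : A.det ≠ 0) (hΓ : Nrm L A Γ) : Rep (rho Γ) α where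
  ex i γ := by
    obtain ⟨j, ω', hω⟩ := h.fac (α i * ((γ : S2) : M2)) (by rw [det_mul, h.det i]; simp)
    have hd : ω'.det = 1 := by
      have := congrArg Matrix.det hω
      rw [det_mul, det_mul, h.det, h.det, Matrix.SpecialLinearGroup.det_coe, mul_one] at this
      exact (mul_right_cancel₀ h0 (by rw [one_mul]; exact this)).symm
    obtain ⟨g, hg, h1⟩ := h.cg i
    refine ⟨j, ⟨⟨ω', hd⟩, h.mem hΓ γ γ.2 g hg _ j ?_⟩, hω⟩
    rw [map_mul, ← h1, ← map_mul, hω]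
  inj i j γ γ' e := by
    have hij : i = j := h.inj i j _ _ e (by
      rw [rho_apply, Matrix.SpecialLinearGroup.det_coe]; exact isCoprime_one_left)
    subst hij
    refine ⟨rfl, ?_⟩
    have h1 : ((γ : S2) : M2) = ((γ' : S2) : M2) :=
      cancel_right (by rw [h.det]; exact h0) e
    exact Subtype.ext (Subtype.ext h1)

/-- two families of the same class are equivalent -/
theorem equiv (h : FamG Γ L A α) (h' : FamG Γ L B β) (hd : A.det = B.det)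
    (hr : ∃ g ∈ Γ, red L B = red L (g * A)) (h0 : A.det ≠ 0) (hΓ : Nrm L A Γ) (k : κ) :
    ∃ i, ∃ δ : Γ, β k = rho Γ δ * α i := by
  obtain ⟨i, ω', hω⟩ := h.fac (β k) (by rw [h'.det k, hd])
  have hd1 : ω'.det = 1 := by
    have := congrArg Matrix.det hω
    rw [det_mul, h.det, h'.det, ← hd] at this
    exact (mul_right_cancel₀ h0 (by rw [one_mul]; exact this)).symm
  obtain ⟨g, hg, h1⟩ := h'.cg k
  obtain ⟨g₀, hg₀, h2⟩ := hr
  refine ⟨i, ⟨⟨ω', hd1⟩, h.mem hΓ 1 Γ.one_mem (g * g₀) (Γ.mul_mem hg hg₀) _ i ?_⟩, hω⟩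
  rw [Matrix.SpecialLinearGroup.coe_one, mul_one, Matrix.SpecialLinearGroup.coe_mul, mul_assoc,
    map_mul, ← h2, ← map_mul, ← h1]
  exact congrArg (red L) hω

/-- `A γ = γ₁ A` modulo `L` with `γ₁` in `Γ` -/
theorem exists_conj (h : FamG Γ L A α) (h0 : A.det ≠ 0) (hΓ : Nrm L A Γ) (γ : S2) (hγ : γ ∈ Γ) :
    ∃ γ₁ ∈ Γ, red L (A * γ) = red L (γ₁ * A) := by
  obtain ⟨i⟩ := h.nonempty
  obtain ⟨j, γ', h1⟩ := (h.rep h0 hΓ).ex i ⟨γ, hγ⟩
  obtain ⟨g, hg, h2⟩ := h.cg i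
  obtain ⟨g', hg', h3⟩ := h.cg j
  refine ⟨g⁻¹ * γ' * g', Γ.mul_mem (Γ.mul_mem (Γ.inv_mem hg) γ'.2) hg', ?_⟩
  have e1 : A * (γ : M2) = ((g⁻¹ : S2) : M2) * (g * A * γ) := by
    rw [mul_assoc (g : M2), coe_inv_mul]
  have h1' : α i * (γ : M2) = ((γ' : S2) : M2) * α j := h1
  rw [e1, map_mul, map_mul (red L) (_ * _) (γ : M2), ← h2, ← map_mul (red L) (α i), h1', map_mul,
    h3, ← map_mul, ← map_mul]
  congr 1
  simp only [Matrix.SpecialLinearGroup.coe_mul, mul_assoc]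

/-- products of coprime determinants -/
theorem mul (h : FamG Γ L A α) (h' : FamG Γ L B β) (h0 : A.det ≠ 0) (h0' : B.det ≠ 0)
    (hΓ' : Nrm L B Γ) (hAB : IsCoprime A.det B.det) :
    FamG Γ L (B * A) (fun p : κ × ι => β p.1 * α p.2) where
  det p := by rw [det_mul, det_mul, h.det, h'.det]
  cg p := by
    obtain ⟨g, hg, h1⟩ := h.cg p.2
    obtain ⟨g', hg', h2⟩ := h'.cg p.1
    obtain ⟨g₁, hg₁, h3⟩ := h'.exists_conj h0' hΓ' g hg
    refine ⟨g' * g₁, Γ.mul_mem hg' hg₁, ?_⟩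
    rw [map_mul, h1, h2, ← map_mul, mul_assoc (g' : M2), ← mul_assoc B, map_mul, map_mul _ _ A, h3,
      ← map_mul, ← map_mul]
    congr 1
    simp only [Matrix.SpecialLinearGroup.coe_mul, mul_assoc]
  fac ω hω := by
    rw [det_mul] at hω
    obtain ⟨i, ω', h1⟩ := h.fac ω (dvd_trans (Dvd.intro_left _ rfl) hω)
    obtain ⟨j, ω'', h2⟩ := h'.fac ω' (by
      rw [h1, det_mul, h.det] at hω
      exact (mul_dvd_mul_iff_right h0).1 hω)
    exact ⟨(j, i), ω'', by rw [h1, h2, mul_assoc]⟩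
  inj p q ω ω' e hc := by
    obtain ⟨j, i⟩ := p
    obtain ⟨j', i'⟩ := q
    simp only [← mul_assoc] at e
    rw [det_mul] at hc
    have hi : i = i' := h.inj _ _ _ _ e (by
      rw [det_mul, h'.det]
      exact IsCoprime.mul_left (IsCoprime.of_mul_right_right hc) hAB.symm)
    subst hi
    have e' := cancel_right (by rw [h.det]; exact h0) e
    have hj : j = j' := h'.inj _ _ _ _ e' (IsCoprime.of_mul_right_left hc)
    rw [hj]

/-- one matrix of determinant one -/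
theorem unit (Γ : Subgroup S2) (L : ℕ) (δ : S2) : FamG Γ L (δ : M2) (fun _ : Unit => (δ : M2)) where
  det _ := rfl
  cg _ := ⟨1, Γ.one_mem, by rw [Matrix.SpecialLinearGroup.coe_one, one_mul]⟩
  fac ω _ := ⟨(), ω * ((δ⁻¹ : S2) : M2), by
    rw [mul_assoc, ← Matrix.SpecialLinearGroup.coe_mul, inv_mul_cancel,
      Matrix.SpecialLinearGroup.coe_one, mul_one]⟩
  inj _ _ _ _ _ _ := rfl

theorem nrm_mul (h : FamG Γ L A α) (h0 : A.det ≠ 0) (hAc : IsCoprime A.det (L : ℤ))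
    (hA : Nrm L A Γ) (hB : Nrm L B Γ) : Nrm L (B * A) Γ := by
  intro γ hγ γ' e
  obtain ⟨γ₁, hγ₁, h1⟩ := h.exists_conj h0 hA γ hγ
  apply hB γ₁ hγ₁ γ'
  apply red_cancel (N := L) (A := A) hAc
  calc red L (B * γ₁ * A) = red L (B * (γ₁ * A)) := by rw [mul_assoc]
    _ = red L (B * (A * γ)) := by rw [map_mul, ← h1, ← map_mul]
    _ = red L (B * A * γ) := by rw [mul_assoc]
    _ = red L (γ' * (B * A)) := e
    _ = red L (γ' * B * A) := by rw [mul_assoc]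

end FamG

section hk

variable {Γ : Subgroup S2} {L : ℕ} {A B : M2} {ι κ : Type*} [Fintype ι] [Fintype κ]
  {α : ι → M2} {β : κ → M2} {C : Type*} [CommGroup C]

/-- the operator depends only on the class -/
theorem hkG_eq (h : FamG Γ L A α) (h' : FamG Γ L B β) (hd : A.det = B.det)
    (hr : ∃ g ∈ Γ, red L B = red L (g * A)) (h0 : A.det ≠ 0) (hA : Nrm L A Γ) (hB : Nrm L B Γ)
    (r : Rep (rho Γ) α) (r' : Rep (rho Γ) β) (φ : Γ →* C) : r'.hk φ = r.hk φ := by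
  have hr' : ∃ g ∈ Γ, red L A = red L (g * B) := by
    obtain ⟨g, hg, h1⟩ := hr
    refine ⟨g⁻¹, Γ.inv_mem hg, ?_⟩
    rw [map_mul, h1, ← map_mul, coe_inv_mul]
  exact r.hk_eq_of_ex r' (fun k => h.equiv h' hd hr h0 hA k)
    (fun i => h'.equiv h hd.symm hr' (hd ▸ h0) hB i) φ

/-- the operators of two classes of coprime determinants which commute up to `Γ` commute -/
theorem hkG_comm (hα : FamG Γ L A α) (hβ : FamG Γ L B β) (hA0 : A.det ≠ 0) (hB0 : B.det ≠ 0)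
    (hAc : IsCoprime A.det (L : ℤ)) (hBc : IsCoprime B.det (L : ℤ)) (hAB : IsCoprime A.det B.det)
    (hA : Nrm L A Γ) (hB : Nrm L B Γ) (hcm : ∃ g ∈ Γ, red L (B * A) = red L (g * (A * B)))
    (r : Rep (rho Γ) α) (r' : Rep (rho Γ) β) (φ : Γ →* C) :
    r.hk (r'.hk φ) = r'.hk (r.hk φ) := by
  have hBA : Nrm L (B * A) Γ := hα.nrm_mul hA0 hAc hA hB
  have hAB' : Nrm L (A * B) Γ := hβ.nrm_mul hB0 hBc hB hA
  have f1 := hα.mul hβ hA0 hB0 hB hAB
  have f2 := hβ.mul hα hB0 hA0 hA hAB.symm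
  have d1 : (B * A).det ≠ 0 := by rw [det_mul]; exact mul_ne_zero hB0 hA0
  have d2 : (A * B).det ≠ 0 := by rw [det_mul]; exact mul_ne_zero hA0 hB0
  rw [r.hk_hk r' (f1.rep d1 hBA), r'.hk_hk r (f2.rep d2 hAB')]
  exact hkG_eq f2 f1 (by rw [det_mul, det_mul, mul_comm]) hcm d2 hAB' hBA _ _ φ

end hk

/-! The groups `G(N, M)`. -/

/-- the group `G(N, M)` -/
def Gs (N M : ℕ) : Subgroup S2 where
  carrier := {γ | InG N M γ}
  one_mem' := by simp [InG]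
  mul_mem' := by
    rintro γ γ' ⟨a1, a2, a3⟩ ⟨b1, b2, b3⟩
    obtain ⟨x, hx⟩ := a1
    obtain ⟨y, hy⟩ := a2
    obtain ⟨x', hx'⟩ := b1
    obtain ⟨y', hy'⟩ := b2
    have e : ∀ i j, (γ * γ') i j = γ i 0 * γ' 0 j + γ i 1 * γ' 1 j := by
      intro i j
      rw [Matrix.SpecialLinearGroup.coe_mul, Matrix.mul_apply, Fin.sum_univ_two]
    refine ⟨?_, ?_, ?_⟩
    · rw [e, hx, hx']
      exact ⟨x * γ' 0 0 + γ 1 1 * x', by ring⟩
    · rw [e, hy, hy']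
      exact ⟨γ 0 0 * y' + y * γ' 1 1, by ring⟩
    · rw [e, hx]
      rcases a3 with ⟨u, hu⟩ | ⟨u, hu⟩ <;> rcases b3 with ⟨v, hv⟩ | ⟨v, hv⟩
      · exact Or.inl ⟨x * γ' 0 1 + u * γ' 1 1 + v, by linear_combination hu * γ' 1 1 + hv⟩
      · exact Or.inr ⟨x * γ' 0 1 + u * γ' 1 1 + v, by linear_combination hu * γ' 1 1 + hv⟩
      · exact Or.inr ⟨x * γ' 0 1 + u * γ' 1 1 - v, by linear_combination hu * γ' 1 1 - hv⟩
      · exact Or.inl ⟨x * γ' 0 1 + u * γ' 1 1 - v, by linear_combination hu * γ' 1 1 - hv⟩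
  inv_mem' := by
    rintro γ ⟨a1, a2, a3⟩
    have e : ((γ⁻¹ : S2) : M2) = !![γ 1 1, -γ 0 1; -γ 1 0, γ 0 0] := by
      rw [Matrix.SpecialLinearGroup.coe_inv, Matrix.adjugate_fin_two]
    have e01 : γ⁻¹ 0 1 = -γ 0 1 := by
      show ((γ⁻¹ : S2) : M2) 0 1 = _
      rw [e]; rfl
    have e10 : γ⁻¹ 1 0 = -γ 1 0 := by
      show ((γ⁻¹ : S2) : M2) 1 0 = _
      rw [e]; rfl
    have e11 : γ⁻¹ 1 1 = γ 0 0 := by
      show ((γ⁻¹ : S2) : M2) 1 1 = _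
      rw [e]; rfl
    have hdet : γ 0 0 * γ 1 1 - γ 0 1 * γ 1 0 = 1 := by
      have := γ.det_coe
      rw [Matrix.det_fin_two] at this
      exact this
    refine ⟨?_, ?_, ?_⟩
    · rw [e10]; exact (dvd_neg).2 a1
    · rw [e01]; exact (dvd_neg).2 a2
    · rw [e11]
      obtain ⟨x, hx⟩ := a1
      rw [hx] at hdet
      rcases a3 with ⟨u, hu⟩ | ⟨u, hu⟩
      · exact Or.inl ⟨γ 0 1 * x - γ 0 0 * u, by linear_combination hdet - γ 0 0 * hu⟩
      · exact Or.inr ⟨γ 0 0 * u - γ 0 1 * x, by linear_combination γ 0 0 * hu - hdet⟩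

theorem mem_Gs {N M : ℕ} {γ : S2} : γ ∈ Gs N M ↔ InG N M γ := Iff.rfl

theorem neg_one_mem (N M : ℕ) : (-1 : S2) ∈ Gs N M := by
  rw [mem_Gs]
  refine ⟨?_, ?_, ?_⟩ <;> simp

theorem dvd_of_red {L m : ℕ} (hm : m ∣ L) {x y : ℤ} (h : (x : ZMod L) = y) : (m : ℤ) ∣ x - y := by
  have h1 : ((x - y : ℤ) : ZMod L) = 0 := by push_cast; rw [h, sub_self]
  exact (Int.natCast_dvd_natCast.2 hm).trans ((ZMod.intCast_zmod_eq_zero_iff_dvd _ _).1 h1)

/-- `G(N, M)` is normalised by the matrices which are upper triangular modulo `N 2^M` and diagonal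
modulo `2^M` -/
theorem nrm_G (N M : ℕ) (A : M2) (h01 : ((2 ^ M : ℕ) : ℤ) ∣ A 0 1)
    (h10 : ((N * 2 ^ M : ℕ) : ℤ) ∣ A 1 0) (hd : IsCoprime A.det ((N * 2 ^ M : ℕ) : ℤ)) :
    Nrm (N * 2 ^ M) A (Gs N M) := by
  rintro γ ⟨a1, a2, a3⟩ γ' e
  rw [red_eq_iff] at e
  simp only [Matrix.mul_apply, Fin.sum_univ_two] at e
  obtain ⟨⟨-, e01⟩, e10, e11⟩ := e
  obtain ⟨p, hp⟩ := h01
  obtain ⟨q, hq⟩ := h10
  obtain ⟨y, hy⟩ := a1
  obtain ⟨x, hx⟩ := a2
  obtain ⟨s01, t01⟩ := dvd_of_red dvd_rfl e01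
  obtain ⟨s10, t10⟩ := dvd_of_red dvd_rfl e10
  obtain ⟨s11, t11⟩ := dvd_of_red dvd_rfl e11
  have hcast : ((N * 2 ^ M : ℕ) : ℤ) = N * ((2 ^ M : ℕ) : ℤ) := by push_cast; ring
  rw [Matrix.det_fin_two] at hd
  have hc : IsCoprime (A 0 0 * A 1 1) ((N * 2 ^ M : ℕ) : ℤ) := by
    have : A 0 0 * A 1 1 - A 0 1 * A 1 0
        = A 0 0 * A 1 1 + ((N * 2 ^ M : ℕ) : ℤ) * (-(A 0 1 * q)) := by
      rw [hq]; ring
    rw [this] at hd
    exact IsCoprime.of_add_mul_left_left hd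
  have hc0 : IsCoprime (A 0 0) ((N * 2 ^ M : ℕ) : ℤ) := IsCoprime.of_mul_left_left hc
  have hc1 : IsCoprime (A 1 1) ((N * 2 ^ M : ℕ) : ℤ) := IsCoprime.of_mul_left_right hc
  have hc1' : IsCoprime (A 1 1) ((2 ^ M : ℕ) : ℤ) := by
    rw [hcast] at hc1
    exact IsCoprime.of_mul_right_right hc1
  -- lower left entry
  have k10 : ((N * 2 ^ M : ℕ) : ℤ) ∣ γ' 1 0 := by
    have : ((N * 2 ^ M : ℕ) : ℤ) ∣ A 0 0 * γ' 1 0 := by
      refine ⟨q * γ 0 0 + A 1 1 * y - γ' 1 1 * q - s10, ?_⟩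
      rw [hq, hy] at t10
      linear_combination -t10
    exact hc0.symm.dvd_of_dvd_mul_left this
  obtain ⟨w, hw⟩ := k10
  -- lower right entry
  have k11 : ((N * 2 ^ M : ℕ) : ℤ) ∣ γ' 1 1 - γ 1 1 := by
    have : ((N * 2 ^ M : ℕ) : ℤ) ∣ A 1 1 * (γ' 1 1 - γ 1 1) := by
      refine ⟨q * γ 0 1 - w * A 0 1 - s11, ?_⟩
      rw [hq, hw] at t11
      linear_combination -t11
    exact hc1.symm.dvd_of_dvd_mul_left this
  -- upper right entry
  have k01 : ((2 ^ M : ℕ) : ℤ) ∣ γ' 0 1 := by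
    have : ((2 ^ M : ℕ) : ℤ) ∣ A 1 1 * γ' 0 1 := by
      refine ⟨A 0 0 * x + p * γ 1 1 - γ' 0 0 * p - N * s01, ?_⟩
      rw [hp, hx, hcast] at t01
      linear_combination -t01
    exact hc1'.symm.dvd_of_dvd_mul_left this
  obtain ⟨r, hr⟩ := k11
  refine ⟨⟨w, hw⟩, k01, ?_⟩
  rcases a3 with ⟨k', hk'⟩ | ⟨k', hk'⟩
  · exact Or.inl ⟨r + k', by linear_combination hr + hk'⟩
  · exact Or.inr ⟨r + k', by linear_combination hr + hk'⟩

/-! The families of the group `G(N, M)`. -/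

theorem exists_isDel (N M : ℕ) (a : ℤ) (ha : IsCoprime a ((N * 2 ^ M : ℕ) : ℤ)) :
    ∃ δ : S2, IsDel N M a δ := by
  have hcast : ((N * 2 ^ M : ℕ) : ℤ) = N * ((2 ^ M : ℕ) : ℤ) := by push_cast; ring
  have ha2 : IsCoprime a ((2 ^ M : ℕ) : ℤ) := by
    rw [hcast] at ha; exact IsCoprime.of_mul_right_right ha
  have h2 : IsCoprime a (((2 ^ M : ℕ) : ℤ) * ((N * 2 ^ M : ℕ) : ℤ)) := ha2.mul_right ha
  obtain ⟨x, y, hxy⟩ := h2
  refine ⟨⟨!![x, -(((2 ^ M : ℕ) : ℤ) * y); ((N * 2 ^ M : ℕ) : ℤ), a], ?_⟩, ⟨?_, ?_, ?_⟩⟩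
  · rw [Matrix.det_fin_two_of]; linear_combination hxy
  · exact ⟨1, by simp⟩
  · exact ⟨-y, by simp⟩
  · exact ⟨0, by simp⟩

theorem det_eq (δ : S2) : δ 0 0 * δ 1 1 - δ 0 1 * δ 1 0 = 1 := by
  have := δ.det_coe
  rw [Matrix.det_fin_two] at this
  exact this

theorem nrm_dia {N M : ℕ} {a : ℤ} {δ : S2} (h : IsDel N M a δ) :
    Nrm (N * 2 ^ M) (δ : M2) (Gs N M) :=
  nrm_G N M _ h.2.1 h.1 (by rw [Matrix.SpecialLinearGroup.det_coe]; exact isCoprime_one_left)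

theorem nrm_diag {N M : ℕ} {m : ℤ} (hm : IsCoprime m ((N * 2 ^ M : ℕ) : ℤ)) :
    Nrm (N * 2 ^ M) !![1, 0; 0, m] (Gs N M) :=
  nrm_G N M _ (by simp) (by simp) (by rw [Matrix.det_fin_two_of]; simpa using hm)

/-- upper triangular elements of `G(N, M)` -/
def upp (M : ℕ) (y : ℤ) : S2 :=
  ⟨!![1, ((2 ^ M : ℕ) : ℤ) * y; 0, 1], by rw [Matrix.det_fin_two_of]; ring⟩

theorem upp_mem (N M : ℕ) (y : ℤ) : upp M y ∈ Gs N M := by
  rw [mem_Gs]
  exact ⟨⟨0, by simp [upp]⟩, ⟨y, rfl⟩, Or.inl ⟨0, by simp [upp]⟩⟩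

/-- a matrix with the right lower row and upper left entry is in the class -/
theorem cls (N M : ℕ) (X : M2) (m : ℤ) (hm : IsCoprime m ((N * 2 ^ M : ℕ) : ℤ))
    (h00 : ((N * 2 ^ M : ℕ) : ℤ) ∣ X 0 0 - 1) (h01 : ((2 ^ M : ℕ) : ℤ) ∣ X 0 1)
    (h10 : ((N * 2 ^ M : ℕ) : ℤ) ∣ X 1 0) (h11 : ((N * 2 ^ M : ℕ) : ℤ) ∣ X 1 1 - m) :
    ∃ g ∈ Gs N M, red (N * 2 ^ M) X = red (N * 2 ^ M) ((g : M2) * !![1, 0; 0, m]) := by
  obtain ⟨y, hy⟩ := h01
  obtain ⟨u, v, huv⟩ := hm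
  have huv' : ((u : ℤ) : ZMod (N * 2 ^ M)) * m = 1 := by
    have := congrArg (Int.cast : ℤ → ZMod (N * 2 ^ M)) huv
    rw [Int.cast_add, Int.cast_mul, Int.cast_mul, Int.cast_natCast, ZMod.natCast_self, mul_zero,
      add_zero, Int.cast_one] at this
    exact this
  have c : ∀ {x y : ℤ}, ((N * 2 ^ M : ℕ) : ℤ) ∣ x - y → ((x : ℤ) : ZMod (N * 2 ^ M)) = y := by
    intro x y h
    have := (ZMod.intCast_zmod_eq_zero_iff_dvd (x - y) (N * 2 ^ M)).2 h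
    rw [Int.cast_sub] at this
    exact sub_eq_zero.1 this
  refine ⟨upp M (y * u), upp_mem N M _, ?_⟩
  rw [red_eq_iff]
  simp only [Matrix.mul_apply, Fin.sum_univ_two]
  refine ⟨⟨?_, ?_⟩, ?_, ?_⟩
  · rw [c h00]; simp [upp]
  · rw [hy]
    simp only [upp, Matrix.of_apply, Matrix.cons_val', Matrix.cons_val_zero, Matrix.cons_val_one,
      Matrix.cons_val_fin_one, mul_zero, zero_add]
    rw [Int.cast_mul, Int.cast_mul, Int.cast_mul, Int.cast_mul, mul_assoc, mul_assoc, huv', mul_one]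
  · rw [show X 1 0 = X 1 0 - 0 by ring] at h10
    rw [c h10]; simp [upp]
  · rw [c h11]; simp [upp]

theorem alp_eq (M ℓ : ℕ) (δ : S2) : alp M ℓ δ = al (2 ^ M) ℓ δ := by
  funext i
  cases i <;> rfl

/-- the family `α_j = [1, 2^M j; 0, ℓ]`, `α_∞ = δ [ℓ, 0; 0, 1]` for the group `G(N, M)` -/
theorem famG_alp (N M : ℕ) (ℓ : ℕ) (hG : Good N ℓ) (δ : S2)
    (hδ : IsDel N M ℓ δ) :
    FamG (Gs N M) (N * 2 ^ M) !![1, 0; 0, (ℓ : ℤ)] (alp M ℓ δ) := by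
  obtain ⟨hℓ, hN⟩ := hG
  have hcast : ((N * 2 ^ M : ℕ) : ℤ) = N * ((2 ^ M : ℕ) : ℤ) := by push_cast; ring
  have hN' : ¬ ℓ ∣ 2 ^ M := by
    intro h
    exact hN (dvd_mul_of_dvd_left (hℓ.dvd_of_dvd_pow h) _)
  have hdet := det_eq δ
  obtain ⟨y, hy⟩ := hδ.1
  obtain ⟨x, hx⟩ := hδ.2.1
  obtain ⟨z, hz⟩ := hδ.2.2
  have c : ∀ {x y : ℤ}, ((2 ^ M : ℕ) : ℤ) ∣ x - y → ((x : ℤ) : ZMod (2 ^ M)) = y := by
    intro x y h
    have := (ZMod.intCast_zmod_eq_zero_iff_dvd (x - y) (2 ^ M)).2 h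
    rw [Int.cast_sub] at this
    exact sub_eq_zero.1 this
  have h00 : ((N * 2 ^ M : ℕ) : ℤ) ∣ ℓ * δ 0 0 - 1 := by
    refine ⟨δ 0 1 * y - δ 0 0 * z, ?_⟩
    rw [hy] at hdet
    linear_combination hdet - δ 0 0 * hz
  have f := fam_al (2 ^ M) ℓ hℓ hN' δ
    (by
      have := c (x := ℓ * δ 0 0) (y := 1)
        ((Dvd.intro_left (N : ℤ) hcast.symm : ((2 ^ M : ℕ) : ℤ) ∣ _).trans h00)
      rw [Int.cast_mul, Int.cast_one] at this
      exact this)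
    (by
      have := c (x := δ 1 0) (y := 0) (by
        rw [sub_zero, hy, hcast]
        exact ⟨N * y, by ring⟩)
      rw [this, Int.cast_zero])
    (by
      have := c (x := δ 0 1) (y := 0) (by
        rw [sub_zero, hx]
        exact ⟨x, rfl⟩)
      rw [this, Int.cast_zero])
    (by
      have := c (x := δ 1 1) (y := ℓ) (by
        rw [hz, hcast]
        exact ⟨N * z, by ring⟩)
      rw [this, Int.cast_natCast])
  rw [alp_eq]
  refine ⟨f.det, ?_, f.fac, f.inj⟩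
  intro i
  have hm : IsCoprime (ℓ : ℤ) ((N * 2 ^ M : ℕ) : ℤ) := by
    rw [Nat.isCoprime_iff_coprime, Nat.Prime.coprime_iff_not_dvd hℓ]
    intro h
    rcases (Nat.Prime.dvd_mul hℓ).1 h with h | h
    · exact hN (dvd_mul_of_dvd_right h _)
    · exact hN' h
  apply cls N M _ _ hm
  · cases i with
    | none =>
      simp only [al, Matrix.mul_apply, Fin.sum_univ_two]
      simp only [Matrix.of_apply, Matrix.cons_val', Matrix.cons_val_zero, Matrix.cons_val_one,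
        Matrix.cons_val_fin_one]
      obtain ⟨t, ht⟩ := h00
      exact ⟨t, by linear_combination ht⟩
    | some j => simp [al]
  · cases i with
    | none =>
      simp only [al, Matrix.mul_apply, Fin.sum_univ_two]
      simp only [Matrix.of_apply, Matrix.cons_val', Matrix.cons_val_zero, Matrix.cons_val_one,
        Matrix.cons_val_fin_one]
      exact ⟨x, by rw [hx]; ring⟩
    | some j => exact ⟨j, by simp [al]⟩
  · cases i with
    | none =>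
      simp only [al, Matrix.mul_apply, Fin.sum_univ_two]
      simp only [Matrix.of_apply, Matrix.cons_val', Matrix.cons_val_zero, Matrix.cons_val_one,
        Matrix.cons_val_fin_one]
      exact ⟨y * ℓ, by rw [hy]; ring⟩
    | some j => simp [al]
  · cases i with
    | none =>
      simp only [al, Matrix.mul_apply, Fin.sum_univ_two]
      simp only [Matrix.of_apply, Matrix.cons_val', Matrix.cons_val_zero, Matrix.cons_val_one,
        Matrix.cons_val_fin_one]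
      exact ⟨z, by linear_combination hz⟩
    | some j => simp [al]

end Vale.Agent.P022.H527.L3
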