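import Mathlib

/-!
P022-L3, row [COS], abstract part: operators `T` on homomorphisms of a group attached to a finite
system of representatives, and the norm of a function.
-/

namespace Vale.Agent.P022.H527.L3

variable {Γ Mo ι κ : Type*} [Group Γ] [Monoid Mo]

/-- `α` is a system of representatives: `α i γ = γ' α j`, with `γ'` and `j` unique. -/
structure Rep (ρ : Γ →* Mo) (α : ι → Mo) : Prop where
  ex : ∀ i γ, ∃ j γ', α i * ρ γ = ρ γ' * α j
  inj : ∀ i j γ γ', ρ γ * α i = ρ γ' * α j → i = j ∧ γ = γ'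

namespace Rep

variable {ρ : Γ →* Mo} {α : ι → Mo} {β : κ → Mo} (h : Rep ρ α) (h' : Rep ρ β)

/-- the index `π(i)` -/
noncomputable def nx (γ : Γ) (i : ι) : ι := (h.ex i γ).choose

/-- the group element `γ_i` -/
noncomputable def el (γ : Γ) (i : ι) : Γ := (h.ex i γ).choose_spec.choose

theorem eq (γ : Γ) (i : ι) : α i * ρ γ = ρ (h.el γ i) * α (h.nx γ i) :=
  (h.ex i γ).choose_spec.choose_spec

theorem uniq {γ : Γ} {i : ι} {γ' : Γ} {j : ι} (e : α i * ρ γ = ρ γ' * α j) :
    h.nx γ i = j ∧ h.el γ i = γ' := by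
  rw [h.eq γ i] at e
  exact h.inj _ _ _ _ e

theorem one (i : ι) : h.nx 1 i = i ∧ h.el 1 i = 1 :=
  h.uniq (by rw [map_one, one_mul, mul_one])

theorem mul (γ γ' : Γ) (i : ι) :
    h.nx (γ * γ') i = h.nx γ' (h.nx γ i) ∧
      h.el (γ * γ') i = h.el γ i * h.el γ' (h.nx γ i) := by
  apply h.uniq
  rw [map_mul, ← mul_assoc, h.eq γ i, mul_assoc, h.eq γ' (h.nx γ i), map_mul, mul_assoc]

/-- the permutation `π` -/
noncomputable def perm (γ : Γ) : Equiv.Perm ι where
  toFun := h.nx γ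
  invFun := h.nx γ⁻¹
  left_inv i := by rw [← (h.mul γ γ⁻¹ i).1, mul_inv_cancel, (h.one i).1]
  right_inv i := by rw [← (h.mul γ⁻¹ γ i).1, inv_mul_cancel, (h.one i).1]

@[simp] theorem perm_apply (γ : Γ) (i : ι) : h.perm γ i = h.nx γ i := rfl

variable [Fintype ι] [Fintype κ]

section hk

variable {B : Type*} [CommGroup B]

/-- the operator `T` of the family `α`: `(T φ)(γ) = ∏ φ(γ_i)` -/
noncomputable def hk (φ : Γ →* B) : Γ →* B where
  toFun γ := ∏ i, φ (h.el γ i)
  map_one' := by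
    apply Finset.prod_eq_one
    intro i _
    rw [(h.one i).2, map_one]
  map_mul' γ γ' := by
    have e : ∏ i, φ (h.el γ' (h.nx γ i)) = ∏ i, φ (h.el γ' i) :=
      Equiv.prod_comp (h.perm γ) fun i => φ (h.el γ' i)
    rw [← e, ← Finset.prod_mul_distrib]
    apply Finset.prod_congr rfl
    intro i _
    rw [(h.mul γ γ' i).2, map_mul]

theorem hk_apply (φ : Γ →* B) (γ : Γ) : h.hk φ γ = ∏ i, φ (h.el γ i) := rfl

theorem hk_one : h.hk (1 : Γ →* B) = 1 := by
  ext γ; simp [hk_apply]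

theorem hk_mul (φ ψ : Γ →* B) : h.hk (φ * ψ) = h.hk φ * h.hk ψ := by
  ext γ
  simp only [hk_apply, MonoidHom.mul_apply, Finset.prod_mul_distrib]

/-- `T` as an endomorphism of the group of homomorphisms -/
noncomputable def hkHom : (Γ →* B) →* (Γ →* B) where
  toFun := h.hk
  map_one' := h.hk_one
  map_mul' := h.hk_mul

theorem hk_inv (φ : Γ →* B) : h.hk φ⁻¹ = (h.hk φ)⁻¹ := map_inv h.hkHom φ

theorem hk_pow (φ : Γ →* B) (n : ℕ) : h.hk (φ ^ n) = h.hk φ ^ n := map_pow h.hkHom φ n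

/-- change of the coefficients -/
theorem hk_comp_left {C : Type*} [CommGroup C] (c : B →* C) (φ : Γ →* B) :
    h.hk (c.comp φ) = c.comp (h.hk φ) := by
  ext γ
  simp only [hk_apply, MonoidHom.comp_apply, map_prod]

omit [Fintype ι] [Fintype κ] in
include h in
/-- a family equivalent to a system of representatives is one -/
theorem congr (e : κ ≃ ι) (δ : κ → Γ) (hδ : ∀ k, β k = ρ (δ k) * α (e k)) : Rep ρ β where
  ex k γ := by
    obtain ⟨j, γ', hj⟩ := h.ex (e k) γ
    refine ⟨e.symm j, δ k * γ' * (δ (e.symm j))⁻¹, ?_⟩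
    rw [hδ k, mul_assoc, hj, hδ (e.symm j), Equiv.apply_symm_apply, map_mul, map_mul,
      mul_assoc (ρ (δ k) * ρ γ'), ← mul_assoc (ρ (δ (e.symm j))⁻¹), ← map_mul ρ _ (δ (e.symm j)),
      inv_mul_cancel, map_one, one_mul, mul_assoc]
  inj i j γ γ' hij := by
    rw [hδ i, hδ j, ← mul_assoc, ← mul_assoc, ← map_mul, ← map_mul] at hij
    obtain ⟨h1, h2⟩ := h.inj _ _ _ _ hij
    have h1 := e.injective h1
    subst h1
    exact ⟨rfl, mul_right_cancel h2⟩

/-- `T` does not depend on the representatives -/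
theorem hk_congr (e : κ ≃ ι) (δ : κ → Γ) (hδ : ∀ k, β k = ρ (δ k) * α (e k)) (φ : Γ →* B) :
    h'.hk φ = h.hk φ := by
  ext γ
  rw [hk_apply, hk_apply]
  have key : ∀ k, h'.nx γ k = e.symm (h.nx γ (e k)) ∧
      h'.el γ k = δ k * h.el γ (e k) * (δ (e.symm (h.nx γ (e k))))⁻¹ := by
    intro k
    apply h'.uniq
    set j := h.nx γ (e k) with hj
    rw [hδ k, mul_assoc, h.eq γ (e k), ← hj, hδ (e.symm j), Equiv.apply_symm_apply, map_mul,
      map_mul, mul_assoc (ρ (δ k) * ρ _), ← mul_assoc (ρ (δ (e.symm j))⁻¹),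
      ← map_mul ρ _ (δ (e.symm j)), inv_mul_cancel, map_one, one_mul, mul_assoc]
  have e1 : ∏ k, φ (δ (e.symm (h.nx γ (e k)))) = ∏ k, φ (δ k) := by
    have := Equiv.prod_comp ((e.trans (h.perm γ)).trans e.symm) fun k => φ (δ k)
    simpa using this
  have e2 : ∏ k, φ (h.el γ (e k)) = ∏ i, φ (h.el γ i) :=
    Equiv.prod_comp e fun i => φ (h.el γ i)
  rw [← e2]
  calc ∏ k, φ (h'.el γ k)
      = ∏ k, (φ (δ k) * φ (h.el γ (e k)) * (φ (δ (e.symm (h.nx γ (e k)))))⁻¹) := by
        apply Finset.prod_congr rfl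
        intro k _
        rw [(key k).2, map_mul, map_mul, map_inv]
    _ = ∏ k, φ (h.el γ (e k)) := by
        rw [Finset.prod_mul_distrib, Finset.prod_mul_distrib, Finset.prod_inv_distrib, e1,
          mul_comm (∏ k, φ (δ k)), mul_assoc, mul_inv_cancel, mul_one]

/-- two families which are equivalent elementwise give the same operator -/
theorem hk_eq_of_ex (h1 : ∀ k, ∃ i δ, β k = ρ δ * α i) (h2 : ∀ i, ∃ k δ, α i = ρ δ * β k)
    (φ : Γ →* B) : h'.hk φ = h.hk φ := by
  choose f δ hf using h1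
  choose g ε hg using h2
  have fg : ∀ i, f (g i) = i := by
    intro i
    have h3 := hg i
    rw [hf (g i), ← mul_assoc, ← map_mul] at h3
    have h4 : ρ 1 * α i = ρ (ε i * δ (g i)) * α (f (g i)) := by rw [map_one, one_mul]; exact h3
    exact (h.inj _ _ _ _ h4).1.symm
  have gf : ∀ k, g (f k) = k := by
    intro k
    have h3 := hf k
    rw [hg (f k), ← mul_assoc, ← map_mul] at h3
    have h4 : ρ 1 * β k = ρ (δ k * ε (f k)) * β (g (f k)) := by rw [map_one, one_mul]; exact h3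
    exact (h'.inj _ _ _ _ h4).1.symm
  exact h.hk_congr h' ⟨f, g, gf, fg⟩ δ hf φ

/-- the composite is the operator of the products -/
theorem hk_hk (hp : Rep ρ (fun p : κ × ι => β p.1 * α p.2)) (φ : Γ →* B) :
    h.hk (h'.hk φ) = hp.hk φ := by
  ext γ
  rw [hk_apply, hk_apply, Fintype.prod_prod_type_right]
  apply Finset.prod_congr rfl
  intro i _
  rw [hk_apply]
  apply Finset.prod_congr rfl
  intro j _
  congr 1
  symm
  apply (hp.uniq (j := (h'.nx (h.el γ i) j, h.nx γ i)) _).2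
  show β j * α i * ρ γ = _ * (β _ * α _)
  rw [mul_assoc, h.eq γ i, ← mul_assoc, h'.eq, mul_assoc]

/-- the norm of a function transforms through `T φ` -/
theorem norm_smul {X M : Type*} [MulAction Mo X] [CommMonoid M] (c : B →* M) (φ : Γ →* B)
    (f : X → M) (hf : ∀ γ x, f (ρ γ • x) = c (φ γ) * f x) (γ : Γ) (x : X) :
    ∏ i, f (α i • (ρ γ • x)) = c (h.hk φ γ) * ∏ i, f (α i • x) := by
  have e : ∏ i, f (α (h.nx γ i) • x) = ∏ i, f (α i • x) :=
    Equiv.prod_comp (h.perm γ) fun i => f (α i • x)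
  rw [← e, hk_apply, map_prod, ← Finset.prod_mul_distrib]
  apply Finset.prod_congr rfl
  intro i _
  rw [← hf, ← mul_smul, ← mul_smul, h.eq]

end hk

/-! The operators on cocycles. -/

section cocycle

variable {P : Type*} [AddCommGroup P] (act : Mo → P →+ P)

/-- the operator `T` on functions of `Γ` with values in a right module -/
noncomputable def hc (u : Γ → P) (γ : Γ) : P := ∑ i, act (α (h.nx γ i)) (u (h.el γ i))

theorem hc_add (u v : Γ → P) : h.hc act (u + v) = h.hc act u + h.hc act v := by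
  ext γ
  simp only [hc, Pi.add_apply, map_add, Finset.sum_add_distrib]

/-- coboundary-like functions: `u γ = F | γ - F` with `F` in a larger module -/
theorem hc_cob (hact : ∀ a b p, act (a * b) p = act b (act a p)) (F : P) (u : Γ → P)
    (hu : ∀ γ, u γ = act (ρ γ) F - F) (γ : Γ) :
    h.hc act u γ = act (ρ γ) (∑ i, act (α i) F) - ∑ i, act (α i) F := by
  have e : ∑ i, act (α (h.nx γ i)) F = ∑ i, act (α i) F :=
    Equiv.sum_comp (h.perm γ) fun i => act (α i) F
  rw [map_sum, ← e]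
  rw [hc, ← Finset.sum_sub_distrib]
  apply Finset.sum_congr rfl
  intro i _
  rw [hu, map_sub, ← hact, ← hact, h.eq]

theorem hc_cocycle (hact : ∀ a b p, act (a * b) p = act b (act a p)) (u : Γ → P)
    (hu : ∀ γ γ', u (γ * γ') = act (ρ γ') (u γ) + u γ') (γ γ' : Γ) :
    h.hc act u (γ * γ') = act (ρ γ') (h.hc act u γ) + h.hc act u γ' := by
  have e : ∑ i, act (α (h.nx γ' (h.nx γ i))) (u (h.el γ' (h.nx γ i)))
      = ∑ i, act (α (h.nx γ' i)) (u (h.el γ' i)) :=
    Equiv.sum_comp (h.perm γ) fun i => act (α (h.nx γ' i)) (u (h.el γ' i))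
  rw [hc, hc, hc, map_sum, ← e, ← Finset.sum_add_distrib]
  apply Finset.sum_congr rfl
  intro i _
  rw [(h.mul γ γ' i).1, (h.mul γ γ' i).2, hu, map_add, ← hact, ← hact, h.eq]

end cocycle

end Rep

end Vale.Agent.P022.H527.L3
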