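import Vale.Agent.P022.H527.L3.Hex

/-!
P022-L3, row [UNI]: `IsT` and `IsD` determine the operators.
-/

namespace Vale.Agent.P022.H527.L3

open Matrix Matrix.SpecialLinearGroup Vale.Agent.P022.L3

variable {N M n : ℕ}

/-- `IsT` characterises `T_ℓ` on `V(N, M, n)` -/
theorem isT_iff {ℓ : ℕ} (h : Good N ℓ) (φ ψ : V N M n) :
    IsT N M n ℓ φ ψ ↔ ψ = Tl N M n ℓ φ := by
  constructor
  · intro hT
    obtain ⟨δ, hδ⟩ := exists_isDel N M ℓ (good_coprime (M := M) h)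
    apply toH_inj
    rw [toH_Tl h hδ]
    ext γ
    rw [toH_apply, Rep.hk_apply]
    obtain ⟨π, g, hg, he, hs⟩ := hT δ hδ γ γ.2
    have hel : ∀ i, (rep_alp h hδ).el γ i = ⟨g i, hg i⟩ := fun i =>
      ((rep_alp h hδ).uniq (γ := γ) (i := i) (j := π i) (γ' := ⟨g i, hg i⟩) (he i)).2
    rw [hs, toAdd_prod, toAdd_ofAdd]
    refine Finset.sum_congr rfl fun i _ => ?_
    rw [hel]
    rfl
  · rintro rfl
    exact isT_Tl h φ

/-- `IsD` characterises `D_a` on `V(N, M, n)` -/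
theorem isD_iff {a : ℤ} (h : IsCoprime a (2 * N)) (φ ψ : V N M n) :
    IsD N M n a φ ψ ↔ ψ = Da N M n a φ := by
  constructor
  · intro hD
    obtain ⟨δ, hδ⟩ := exists_isDel N M a (unit_coprime (M := M) h)
    apply Subtype.ext
    funext γ
    exact (hD δ hδ γ).trans (Da_apply h hδ φ γ).symm
  · rintro rfl
    exact fun δ hδ γ => Da_apply h hδ φ γ

theorem IsT.unique {ℓ : ℕ} (h : Good N ℓ) {φ ψ ψ' : V N M n} (h1 : IsT N M n ℓ φ ψ)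
    (h2 : IsT N M n ℓ φ ψ') : ψ = ψ' :=
  ((isT_iff h φ ψ).1 h1).trans ((isT_iff h φ ψ').1 h2).symm

theorem IsD.unique {a : ℤ} (h : IsCoprime a (2 * N)) {φ ψ ψ' : V N M n} (h1 : IsD N M n a φ ψ)
    (h2 : IsD N M n a φ ψ') : ψ = ψ' :=
  ((isD_iff h φ ψ).1 h1).trans ((isD_iff h φ ψ').1 h2).symm

theorem IsT.add {ℓ : ℕ} (h : Good N ℓ) {φ ψ φ' ψ' : V N M n} (h1 : IsT N M n ℓ φ ψ)
    (h2 : IsT N M n ℓ φ' ψ') : IsT N M n ℓ (φ + φ' : V N M n) (ψ + ψ' : V N M n) := by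
  rw [isT_iff h] at h1 h2 ⊢
  rw [h1, h2, map_add]

theorem IsD.add {a : ℤ} (h : IsCoprime a (2 * N)) {φ ψ φ' ψ' : V N M n} (h1 : IsD N M n a φ ψ)
    (h2 : IsD N M n a φ' ψ') : IsD N M n a (φ + φ' : V N M n) (ψ + ψ' : V N M n) := by
  rw [isD_iff h] at h1 h2 ⊢
  rw [h1, h2, map_add]

/-- multiples of one homomorphism: the operator commutes with the scalars -/
theorem IsT.nsmul {ℓ : ℕ} (h : Good N ℓ) {φ ψ : V N M n} (h1 : IsT N M n ℓ φ ψ) (k : ℕ) :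
    IsT N M n ℓ (k • φ : V N M n) (k • ψ : V N M n) := by
  rw [isT_iff h] at h1 ⊢
  rw [h1, map_nsmul]

theorem IsD.nsmul {a : ℤ} (h : IsCoprime a (2 * N)) {φ ψ : V N M n} (h1 : IsD N M n a φ ψ)
    (k : ℕ) : IsD N M n a (k • φ : V N M n) (k • ψ : V N M n) := by
  rw [isD_iff h] at h1 ⊢
  rw [h1, map_nsmul]

/-- the value of `T_ℓ φ` from any system `α_i γ = g_i α_(π i)` with `g_i` in `G(N, M)` -/
theorem Tl_value {ℓ : ℕ} (h : Good N ℓ) {δ : S2} (hδ : IsDel N M ℓ δ) (φ : V N M n) {γ : S2}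
    (hγ : InG N M γ) (π : Option (Fin ℓ) → Option (Fin ℓ)) (g : Option (Fin ℓ) → S2)
    (hg : ∀ i, InG N M (g i))
    (he : ∀ i, alp M ℓ δ i * (γ : M2) = (g i : M2) * alp M ℓ δ (π i)) :
    (Tl N M n ℓ φ).1 γ = ∑ i, φ.1 (g i) := by
  have h1 := congrArg (fun f => (f ⟨γ, hγ⟩).toAdd) (toH_Tl h hδ φ)
  simp only [Rep.hk_apply, toAdd_prod] at h1
  refine h1.trans (Finset.sum_congr rfl fun i _ => ?_)
  have hel : (rep_alp h hδ).el ⟨γ, hγ⟩ i = ⟨g i, hg i⟩ :=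
    ((rep_alp h hδ).uniq (γ := ⟨γ, hγ⟩) (i := i) (j := π i) (γ' := ⟨g i, hg i⟩) (he i)).2
  rw [hel]
  rfl

end Vale.Agent.P022.H527.L3
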